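import Vale.Agent.P216.MV337.Conj
import Vale.Agent.P216.H901.Sp
import Vale.Agent.P216.L250.Loop

/-!
# P216-B, block [MV] / W6: Moore loops and the energy sublevels (statement)
-/

set_option linter.all false

namespace Vale.Agent.P216.MV337

open Set BoundedContinuousFunction
open Vale.Agent.P216.H901 (SpIntl)
open Vale.Agent.P216.L250 (XE LM fn)

/-- **[W6]** the energy sublevels `XE M t` and the Moore-Lipschitz free loops `FL M t` are
interleaved with arbitrarily small shift; the map from the Moore loops is the change of scale. -/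
def StMoore : Prop := ∀ (M : Type) [MetricSpace M] [CompactSpace M] (ρ : ℝ), 0 < ρ →
  LS.UniqSeg M ρ → ∀ ε : ℝ, 0 < ε →
  ∃ I : SpIntl (fun t => XE M t) (fun _ => ∅) (fun t => FL M t) (fun _ => ∅) ε,
    ∀ t, 0 < t → ∀ w ∈ FL M t, ∀ s ∈ Icc (0:ℝ) 1, fn (I.g t w) s = w (t * s)

end Vale.Agent.P216.MV337
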