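import Vale.Agent.P216.MV337.FLOut
import Vale.Agent.P216.MV337.MooreDefs
import Vale.Agent.P216.B64.Goals

/-!
# P216-B, B44, second half: from the Moore-Lipschitz loops to the energy sublevels
-/

set_option linter.all false

namespace Vale.Agent.P216.MV337

open Set BoundedContinuousFunction
open Vale.Agent.P216.B64 Vale.Agent.P216.AS Vale.Agent.P216.GM
open Vale.Agent.P216.H901 (SpIntl Hp)
open Vale.Agent.P216.L250 (XE LM fn XE_mono fn_rev ext_fn fn_periodic)

section Pull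

variable {k : Type} [Field k] {E E' E'' : Type} [PseudoMetricSpace E] [PseudoMetricSpace E']
  [PseudoMetricSpace E''] {A A₁ : Set E} {B B₁ : Set E'} {C : Set E''} {f g : E → E'}
  {n : ℕ}

/-- Homotopic maps have the same pullback. -/
theorem hpull_hp (hf : UMap A B f) (hg : UMap A B g) (h : Hp A ∅ B ∅ f g) (z : HU k B n) :
    hpull k hf n z = hpull k hg n z := by
  obtain ⟨D, hD, -, h0, h1⟩ := h
  have hD' : IsHtpy (a0 E) (a0 E') A B D := hD
  have e0 : hpull k hf n = pull (c0 k) hD'.zero n := pull_congr hf hD'.zero h0.symm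
  have e1 : hpull k hg n = pull (c0 k) hD'.one n := pull_congr hg hD'.one h1.symm
  rw [e0, e1, pull_homotopy hD' n]

theorem hp_mono {A' : Set E} {B' : Set E'} (h : Hp A ∅ B ∅ f g) (hA : A' ⊆ A) (hB : B ⊆ B') :
    Hp A' ∅ B' ∅ f g := by
  obtain ⟨D, hD, hm, h0, h1⟩ := h
  exact ⟨D, hD.mono hA fun s hs x hx => hB (hD.mapsX s hs (hA hx)), hm, h0.mono hA, h1.mono hA⟩

theorem hres_hpull (hf : UMap A B f) (hA : A₁ ⊆ A) (hf' : UMap A₁ B f) (z : HU k B n) :
    hres k hA n (hpull k hf n z) = hpull k hf' n z := by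
  obtain ⟨c, hc, rfl⟩ := H.exists_mk z
  rfl

theorem hpull_hres (hf : UMap A B f) (hB : B ⊆ B₁) (hf' : UMap A B₁ f) (z : HU k B₁ n) :
    hpull k hf n (hres k hB n z) = hpull k hf' n z := by
  obtain ⟨c, hc, rfl⟩ := H.exists_mk z
  rfl

theorem hpull_hpull {g : E' → E''} (hg : UMap B C g) (hf : UMap A B f) (h : UMap A C (g ∘ f))
    (z : HU k C n) : hpull k hf n (hpull k hg n z) = hpull k h n z := by
  obtain ⟨c, hc, rfl⟩ := H.exists_mk z
  rfl

theorem hpull_congr (hf : UMap A B f) (hg : UMap A B g) (h : EqOn f g A) (z : HU k B n) :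
    hpull k hf n z = hpull k hg n z := by
  have := pull_congr (χ := c0 k) (n := n) hf hg h
  exact DFunLike.congr_fun this z

theorem hpull_id {A B : Set E} (hf : UMap A B (id : E → E)) (hB : A ⊆ B) (z : HU k B n) :
    hpull k hf n z = hres k hB n z := by
  obtain ⟨c, hc, rfl⟩ := H.exists_mk z
  rfl

end Pull

section Moore

variable {M : Type} [MetricSpace M] [CompactSpace M]
  (I : SpIntl (fun t => XE M t) (fun _ => ∅) (fun t => FL M t) (fun _ => ∅) 1)
  {k : Type} [Field k] {q : ℕ} {X Y : Set (LM M)} {s t u u' : ℝ}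

theorem umf (ht : 0 < t) (hX : X ⊆ XE M t) (hu : t + 1 ≤ u) : UMap X (FL M u) (I.f t) :=
  (I.f_map t ht).mono hX fun _ hx => FL_mono hu ((I.f_map t ht).mapsX (hX hx))

theorem umg (ht : 0 < t) (hu : u ≤ t) (hY : XE M (t + 1) ⊆ Y) : UMap (FL M u) Y (I.g t) :=
  (I.g_map t ht).mono (FL_mono hu) fun _ hx => hY ((I.g_map t ht).mapsX (FL_mono hu hx))

/-- change of `t` -/
theorem hpull_f (hs : 0 < s) (hst : s ≤ t) (hX : X ⊆ XE M s) (hu : t + 1 ≤ u)
    (h1 : UMap X (FL M u) (I.f s)) (h2 : UMap X (FL M u) (I.f t)) (z : HU k (FL M u) q) :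
    hpull k h1 q z = hpull k h2 q z :=
  hpull_hp h1 h2 (hp_mono (I.f_nat s t hs hst) hX (FL_mono hu)) z

theorem hpull_g (hs : 0 < s) (hst : s ≤ t) (hu : u ≤ s) (hY : XE M (t + 1) ⊆ Y)
    (h1 : UMap (FL M u) Y (I.g s)) (h2 : UMap (FL M u) Y (I.g t)) (z : HU k Y q) :
    hpull k h1 q z = hpull k h2 q z :=
  hpull_hp h1 h2 (hp_mono (I.g_nat s t hs hst) (FL_mono hu) hY) z

/-- `f ^* g ^* = res`. -/
theorem hpull_fg (hs : 0 < s) (hX : X ⊆ XE M s) (hst : s + 1 ≤ t) (hY : XE M (t + 1) ⊆ Y)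
    (h1 : UMap X (FL M (s + 1)) (I.f s)) (h2 : UMap (FL M (s + 1)) Y (I.g t)) (hXY : X ⊆ Y)
    (z : HU k Y q) : hpull k h1 q (hpull k h2 q z) = hres k hXY q z := by
  have hY' : XE M (s + 1 + 1) ⊆ Y := (XE_mono (by linarith) (by linarith)).trans hY
  rw [← hpull_g I (by linarith) hst le_rfl hY (umg I (by linarith) le_rfl hY') h2 z,
    hpull_hpull _ _ ((umg I (by linarith) le_rfl hY').comp h1) z,
    ← hpull_hp (IsMap.id_of_subset hXY) _ (hp_mono (I.gf s hs) hX hY') z]
  exact hpull_id _ _ z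

/-- `g ^* f ^* = res`. -/
theorem hpull_gf (ht : 0 < t) (h1 : UMap (FL M t) (XE M (t + 1)) (I.g t))
    (h2 : UMap (XE M (t + 1)) (FL M u) (I.f (t + 1))) (hu : t + 1 + 1 ≤ u)
    (z : HU k (FL M u) q) : hpull k h1 q (hpull k h2 q z) = hres k (FL_mono (by linarith)) q z := by
  rw [hpull_hpull _ _ (h2.comp h1) z,
    ← hpull_hp (IsMap.id_of_subset (FL_mono (by linarith))) _
      (hp_mono (I.fg t ht) le_rfl (FL_mono hu)) z]
  exact hpull_id _ _ z

theorem XL_subset (h : max s 0 ≤ t) : XL M s ⊆ XE M t := XE_mono (le_max_right _ _) h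

variable {n : ℕ} {B : ℝ} (F : FLOut M n B k)

/-- The key: independence of the levels. -/
theorem hpull_G (ht : 0 < t) (hX : X ⊆ XE M t) (hu : t + 1 ≤ u) {t' : ℝ} (ht' : 0 < t')
    (hX' : X ⊆ XE M t') (hu' : t' + 1 ≤ u')
    (h1 : UMap X (FL M u) (I.f t)) (h2 : UMap X (FL M u') (I.f t')) :
    hpull k h1 q (F.g q u) = hpull k h2 q (F.g q u') := by
  have key : ∀ {t t' u u' : ℝ}, 0 < t → X ⊆ XE M t → t + 1 ≤ u → X ⊆ XE M t' → t' + 1 ≤ u' →
      t ≤ t' → ∀ (h1 : UMap X (FL M u) (I.f t)) (h2 : UMap X (FL M u') (I.f t')),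
      hpull k h1 q (F.g q u) = hpull k h2 q (F.g q u') := by
    intro t t' u u' ht hX hu hX' hu' htt h1 h2
    have e1 := F.res_g q u (max u u') (by linarith) (le_max_left _ _)
    have e2 := F.res_g q u' (max u u') (by linarith) (le_max_right _ _)
    rw [← e1, ← e2, hpull_hres h1 (FL_mono (le_max_left _ _))
      (umf I ht hX (hu.trans (le_max_left _ _))),
      hpull_hres h2 (FL_mono (le_max_right _ _))
        (umf I (ht.trans_le htt) hX' (hu'.trans (le_max_right _ _)))]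
    exact hpull_f I ht htt hX (hu'.trans (le_max_right _ _)) _ _ _
  rcases le_total t t' with h | h
  · exact key ht hX hu hX' hu' h h1 h2
  · exact (key ht' hX' hu' hX hu h h2 h1).symm

/-- The generators. -/
noncomputable def gX (q : ℕ) (s : ℝ) : HU k (XL M s) q :=
  hpull k (umf I (t := max s 0 + 1) (by positivity) (XL_subset (by linarith)) le_rfl) q
    (F.g q (max s 0 + 1 + 1))

theorem gX_eq (ht : 0 < t) (hX : XL M s ⊆ XE M t) (hu : t + 1 ≤ u)
    (h : UMap (XL M s) (FL M u) (I.f t)) : gX I F q s = hpull k h q (F.g q u) :=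
  hpull_G I F (by positivity) (XL_subset (by linarith)) le_rfl ht hX hu _ _

theorem gX_zero (hs : 1 < s) (h : gX I F q s = 0) : F.g q (s - 1) = 0 := by
  have h1 : XL M s ⊆ XE M (s - 1 + 1) := XL_subset (max_le (by linarith) (by linarith))
  have h1' : XE M (s - 1 + 1) ⊆ XL M s := by rw [XL_eq (by linarith), sub_add_cancel]
  rw [gX_eq I F (by linarith) h1 le_rfl (umf I (by linarith) h1 le_rfl)] at h
  have h2 : hpull k (umf I (t := s - 1 + 1) (by linarith) le_rfl le_rfl) q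
      (F.g q (s - 1 + 1 + 1)) = 0 := by
    rw [← hres_hpull (umf I (by linarith) h1 le_rfl) h1', h, map_zero]
  have h3 := hpull_gf I (t := s - 1) (by linarith) (umg I (by linarith) le_rfl le_rfl)
    (umf I (by linarith) le_rfl le_rfl) le_rfl (F.g q (s - 1 + 1 + 1))
  rw [h2, map_zero] at h3
  rw [← F.res_g q (s - 1) (s - 1 + 1 + 1) (by linarith) (by linarith)]
  exact h3.symm

/-! ### Reversal -/

/-- Reversal of Moore loops of duration `t`. -/
noncomputable def revb (t : ℝ) (w : ℝ →ᵇ M) : ℝ →ᵇ M :=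
  w.compContinuous ⟨fun u => t - u, by fun_prop⟩

theorem revP_revb (t : ℝ) : RevP (M := M) t (revb t) := fun _ _ => rfl

theorem umap_revb (t : ℝ) : UMap (FL M t) (FL M t) (revb t) := by
  refine ⟨fun w hw => ?_, fun e => e.elim, fun ε hε => ⟨ε, hε, fun w _ w' _ h => ?_⟩⟩
  · refine ⟨fun u v => ?_, fun u hu => ?_, fun u hu => ?_⟩
    · show dist (w (t - u)) (w (t - v)) ≤ _
      refine (hw.1 _ _).trans_eq ?_
      rw [show t - u - (t - v) = -(u - v) by ring, abs_neg]
    · show w (t - u) = w (t - 0)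
      rw [hw.2.2 (t - u) (by linarith), hw.2.2 (t - 0) (by linarith)]
    · show w (t - u) = w (t - 0)
      rw [hw.2.1 (t - u) (by linarith), hw.2.2 (t - 0) (by linarith)]
  · refine lt_of_le_of_lt ?_ h
    refine (dist_le dist_nonneg).2 fun u => ?_
    exact dist_coe_le_dist (f := w) (g := w') (t - u)

theorem g_rev (hI : ∀ t, 0 < t → ∀ w ∈ FL M t, ∀ s ∈ Icc (0:ℝ) 1, fn (I.g t w) s = w (t * s))
    (ht : 0 < t) : EqOn (I.g t ∘ revb t) (L250.rev ∘ I.g t) (FL M t) := by
  intro w hw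
  refine ext_fn fun x => ?_
  show fn (I.g t (revb t w)) x = fn (L250.rev (I.g t w)) x
  rw [fn_rev]
  have e1 : fn (I.g t (revb t w)) x = fn (I.g t (revb t w)) (Int.fract x) := by
    have := (fn_periodic (I.g t (revb t w))).sub_int_mul_eq ⌊x⌋ (x := x)
    rw [mul_one] at this
    exact this.symm
  have e2 : fn (I.g t w) (-x) = fn (I.g t w) (1 - Int.fract x) := by
    have := (fn_periodic (I.g t w)).sub_int_mul_eq (-(⌊x⌋ + 1)) (x := -x)
    rw [← this]
    congr 1
    have := Int.self_sub_floor x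
    push_cast
    linarith
  rw [e1, e2, hI t ht _ ((umap_revb t).mapsX hw) _ ⟨Int.fract_nonneg x, (Int.fract_lt_one x).le⟩,
    hI t ht _ hw _ ⟨by linarith [Int.fract_lt_one x], by linarith [Int.fract_nonneg x]⟩]
  show w (t - t * Int.fract x) = _
  congr 1
  ring

theorem gX_rev (hI : ∀ t, 0 < t → ∀ w ∈ FL M t, ∀ s ∈ Icc (0:ℝ) 1, fn (I.g t w) s = w (t * s))
    {c : k} (hc : ∀ t, 0 < t → ∀ f, RevP t f → ∀ h : UMap (FL M t) (FL M t) f,
      hpull k h q (F.g q t) = c • F.g q t) (s : ℝ) :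
    hpull k (umap_rev s) q (gX I F q s) = c • gX I F q s := by
  -- the level `v` with `XL M s ⊆ XE M v`
  obtain ⟨v, hv⟩ : ∃ v, v = max s 0 + 1 := ⟨_, rfl⟩
  have hv0 : 0 < v := by rw [hv]; positivity
  have hsv : XL M s ⊆ XE M v := XL_subset (by linarith)
  have hvv : XE M v ⊆ XE M (v + 1 + 1) := XE_mono hv0.le (by linarith)
  have hrev : ∀ t, UMap (XE M t) (XE M t) (L250.rev : LM M → LM M) := fun t =>
    ⟨fun _ hg => L250.rev_mem hg, fun e => e.elim, fun ε hε =>
      ⟨ε, hε, fun g _ g' _ h => by rwa [L250.isometry_rev.dist_eq]⟩⟩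
  -- the class `y` on `XE M (v + 2)`
  set y : HU k (XE M (v + 1 + 1)) q :=
    hpull k (umf I (by linarith) le_rfl le_rfl) q (F.g q (v + 1 + 1 + 1)) with hy
  have hg : UMap (FL M (v + 1)) (XE M (v + 1 + 1)) (I.g (v + 1)) :=
    umg I (by linarith) le_rfl le_rfl
  have hf : UMap (XE M v) (FL M (v + 1)) (I.f v) := umf I hv0 le_rfl le_rfl
  have B1 : hpull k hg q y = F.g q (v + 1) := by
    rw [hy, hpull_gf I (by linarith) hg _ le_rfl, F.res_g q _ _ (by linarith) (by linarith)]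
  have C1 : hpull k hg q (hpull k (hrev _) q y) = hpull k hg q (c • y) := by
    rw [hpull_hpull _ _ ((hrev _).comp hg),
      ← hpull_congr (hg.comp (umap_revb (v + 1))) _ (g_rev I hI (by linarith)),
      ← hpull_hpull hg (umap_revb (v + 1)), B1, map_smul, B1]
    exact hc (v + 1) (by linarith) _ (revP_revb _) _
  have D1 : hres k hvv q (hpull k (hrev _) q y) = hres k hvv q (c • y) := by
    rw [← hpull_fg I hv0 le_rfl le_rfl le_rfl hf hg hvv, C1,
      hpull_fg I hv0 le_rfl le_rfl le_rfl hf hg hvv]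
  have hsy : gX I F q s = hres k (hsv.trans hvv) q y := by
    rw [hy, hres_hpull _ _ (umf I (by linarith) (hsv.trans hvv) le_rfl)]
    exact gX_eq I F (by linarith) (hsv.trans hvv) le_rfl _
  have E1 := congrArg (hres k hsv q) D1
  rw [res_res, res_res, map_smul] at E1
  rw [hsy, hpull_hres (umap_rev s) (hsv.trans hvv)
    ((hrev _).mono (hsv.trans hvv) fun x hx => (hsv.trans hvv) ((umap_rev s).mapsX hx))]
  rw [← E1]
  exact (hres_hpull _ _ _ y).symm

/-- **B44, second half.** -/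
noncomputable def xOut (hB : 0 < B)
    (hI : ∀ t, 0 < t → ∀ w ∈ FL M t, ∀ s ∈ Icc (0:ℝ) 1, fn (I.g t w) s = w (t * s)) :
    XOut M n (B + 3) k where
  g := gX I F
  res_g q s t h := by
    have hX : XL M s ⊆ XE M (max t 0 + 1) := (XL_mono h).trans (XL_subset (by linarith))
    rw [gX, hres_hpull _ _ (umf I (by positivity) hX le_rfl)]
    exact (gX_eq I F (by positivity) hX le_rfl _).symm
  span q t ht h z := by
    have ht1 : 0 < t + 1 := by linarith
    have hXt : XL M t ⊆ XE M (t + 1) := XL_subset (max_le (by linarith) (by linarith))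
    have hY : XE M (t + 1 + 1 + B + 1) ⊆ XL M (t + (B + 3)) := by
      rw [XL_eq (by linarith)]
      exact XE_mono (by linarith) (by linarith)
    have hg : UMap (FL M (t + 1 + 1 + B)) (XL M (t + (B + 3))) (I.g (t + 1 + 1 + B)) :=
      umg I (by linarith) le_rfl hY
    have hg' : UMap (FL M (t + 1 + 1)) (XL M (t + (B + 3))) (I.g (t + 1 + 1 + B)) :=
      umg I (by linarith) (by linarith) hY
    have hf : UMap (XL M t) (FL M (t + 1 + 1)) (I.f (t + 1)) := umf I ht1 hXt le_rfl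
    obtain ⟨c, hc⟩ := F.span q (t + 1 + 1) (by linarith) (FL_mono (by linarith))
      (hpull k hg q z)
    refine ⟨c, ?_⟩
    rw [hres_hpull _ _ hg'] at hc
    have := congrArg (hpull k hf q) hc
    rw [hpull_fg I ht1 hXt (by linarith) hY hf hg' h, map_smul] at this
    rw [this, gX_eq I F ht1 hXt le_rfl hf]
  g_zero q s hq := by
    rw [gX, F.g_zero q _ (by positivity) hq, map_zero]
  rev_zero s := by
    have := gX_rev I F hI (c := 1) (q := 0) (fun t ht f hf h => by
      rw [one_smul]; exact F.rev_zero t ht f hf h) s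
    rw [this, one_smul]
  rev_x i s := gX_rev I F hI (F.rev_x i) s
  rev_y i s := gX_rev I F hI (F.rev_y i) s
  birth0 t ht h := by
    have h1 := gX_zero I F (by linarith) h
    exact F.birth0 (t - 1) (by linarith) (by linarith) h1
  birth i t ht h h' := by
    have h1 := gX_zero I F (by linarith) h'
    rw [show t + (B + 3) - 1 = t + 1 + 1 + B by ring] at h1
    refine F.birth i (t + 1 + 1) (by linarith) (fun h2 => h ?_) h1
    have hXt : XL M t ⊆ XE M (t + 1) := XL_subset (max_le (by linarith) (by linarith))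
    rw [gX_eq I F (by linarith) hXt le_rfl (umf I (by linarith) hXt le_rfl), h2, map_zero]

end Moore

/-- **B44, second half.** -/
theorem xGoal_of (hM : StMoore) (hF : FLGoal) : XGoal := by
  intro n hn M _ _ ρ hρ hs he
  obtain ⟨B, hB, hF'⟩ := hF n hn M ρ hρ hs he
  obtain ⟨I, hI⟩ := hM M ρ hρ hs 1 one_pos
  refine ⟨B + 3, by linarith, fun k _ h2 => ?_⟩
  obtain ⟨F⟩ := hF' k h2
  exact ⟨xOut I F hB hI⟩

end Vale.Agent.P216.MV337
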