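import Mathlib

/-!
# P216-B, block [MV], geometry: a closed cell and its complement in a sphere
-/

set_option linter.all false

namespace Vale.Agent.P216.MV337

open Set

/-- `M = Dp ∪ Dm` with `Dp` a closed `n`-cube `ψ : [0,1]^n → Dp` (inverse `φ`), `Dp ∩ Dm` its boundary,
both parts contractible in `M` to the point `x₀`, and `Dm` contractible in itself. -/
structure Caps (n : ℕ) (M : Type) [TopologicalSpace M] (x₀ : M) where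
  Dp : Set M
  Dm : Set M
  closed_p : IsClosed Dp
  closed_m : IsClosed Dm
  union : Dp ∪ Dm = univ
  φ : M → Fin n → ℝ
  ψ : (Fin n → ℝ) → M
  φ_cont : ContinuousOn φ Dp
  φ_mem : ∀ x ∈ Dp, ∀ i, φ x i ∈ Icc (0:ℝ) 1
  ψ_cont : ContinuousOn ψ {y | ∀ i, y i ∈ Icc (0:ℝ) 1}
  ψ_mem : ∀ y, (∀ i, y i ∈ Icc (0:ℝ) 1) → ψ y ∈ Dp
  φψ : ∀ y, (∀ i, y i ∈ Icc (0:ℝ) 1) → φ (ψ y) = y
  ψφ : ∀ x ∈ Dp, ψ (φ x) = x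
  /-- the boundary -/
  bdry : ∀ x ∈ Dp, x ∈ Dm ↔ ∃ i, φ x i = 0 ∨ φ x i = 1
  /-- nullhomotopies -/
  Hp : M × ℝ → M
  Hp_cont : ContinuousOn Hp (Dp ×ˢ Icc (0:ℝ) 1)
  Hp_zero : ∀ x ∈ Dp, Hp (x, 0) = x
  Hp_one : ∀ x ∈ Dp, Hp (x, 1) = x₀
  Hm : M × ℝ → M
  Hm_cont : ContinuousOn Hm (Dm ×ˢ Icc (0:ℝ) 1)
  Hm_zero : ∀ x ∈ Dm, Hm (x, 0) = x
  Hm_one : ∀ x ∈ Dm, Hm (x, 1) = x₀
  /-- contraction of `Dm` in itself -/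
  xm : M
  xm_mem : xm ∈ Dm
  Km : M × ℝ → M
  Km_cont : ContinuousOn Km (Dm ×ˢ Icc (0:ℝ) 1)
  Km_mem : ∀ x ∈ Dm, ∀ s ∈ Icc (0:ℝ) 1, Km (x, s) ∈ Dm
  Km_zero : ∀ x ∈ Dm, Km (x, 0) = x
  Km_one : ∀ x ∈ Dm, Km (x, 1) = xm

/-- [SPH] a space homeomorphic to a sphere has caps -/
def StCaps : Prop := ∀ (n : ℕ) (M : Type) [TopologicalSpace M] (x₀ : M), 1 ≤ n →
  Nonempty (M ≃ₜ Metric.sphere (0 : EuclideanSpace ℝ (Fin (n + 1))) 1) → Nonempty (Caps n M x₀)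

end Vale.Agent.P216.MV337
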