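import Vale.Agent.P216.MV337.Conj

/-!
# P216-B, block [MV], geometry: trivialisations with bounded shift

`Tr D x₀ ℓ T`: tracks `T x` of time `ℓ` from the points `x` of `D` to `x₀`.  Conjugation by the
tracks identifies, up to the shift `2 ℓ` of the time, the free loops with origin in `D` with
`D × P x₀ x₀ t`.
-/

set_option linter.all false

namespace Vale.Agent.P216.MV337

open Set Filter Topology BoundedContinuousFunction
open Vale.Agent.P216.PS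

variable {M : Type*} [MetricSpace M]

/-- tracks from the points of `D` to `x₀` -/
structure Tr (D : Set M) (x₀ : M) (ℓ : ℝ) (T : M → ℝ → M) : Prop where
  nonneg : 0 ≤ ℓ
  lip : ∀ x ∈ D, Lip (T x)
  left : ∀ x ∈ D, ∀ u ≤ 0, T x u = x
  right : ∀ x ∈ D, ∀ u, ℓ ≤ u → T x u = x₀
  cont : ContinuousOn (fun p : M × ℝ => T p.1 p.2) (D ×ˢ univ)

/-- free loops of time `t` with origin in `D` -/
def FLD (D : Set M) (t : ℝ) : Set (ℝ →ᵇ M) := {w | w ∈ FL M t ∧ w 0 ∈ D}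

variable {D D' : Set M} {x₀ : M} {ℓ : ℝ} {T : M → ℝ → M} {t t' : ℝ}

theorem FLD_mono (h : D ⊆ D') (ht : t ≤ t') : FLD D t ⊆ FLD D' t' :=
  fun _ hw => ⟨FL_mono ht hw.1, h hw.2⟩

/-- cut: from the loops with origin in `D` to the based loops -/
noncomputable def cut [CompactSpace M] (T : M → ℝ → M) (ℓ t : ℝ) (w : ℝ →ᵇ M) : ℝ →ᵇ M :=
  mo (cj ℓ t (T (w 0)) w)

/-- back: from the based loops to the loops with origin `x` -/
noncomputable def back [CompactSpace M] (T : M → ℝ → M) (ℓ t : ℝ) (p : M × (ℝ →ᵇ M)) : ℝ →ᵇ M :=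
  mo (cj ℓ t (fun u => T p.1 (ℓ - u)) p.2)

namespace Tr

theorem mono (h : Tr D' x₀ ℓ T) (hD : D ⊆ D') : Tr D x₀ ℓ T where
  nonneg := h.nonneg
  lip x hx := h.lip x (hD hx)
  left x hx := h.left x (hD hx)
  right x hx := h.right x (hD hx)
  cont := h.cont.mono (prod_mono hD le_rfl)

theorem cont' (h : Tr D x₀ ℓ T) {S : Type*} [TopologicalSpace S] {A : Set S} {X : S → M}
    {φ : S → ℝ} (hX : ContinuousOn X A) (hXD : MapsTo X A D) (hφ : ContinuousOn φ A) :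
    ContinuousOn (fun s => T (X s) (φ s)) A :=
  h.cont.comp (hX.prodMk hφ) fun s hs => ⟨hXD hs, mem_univ _⟩

theorem liprev (h : Tr D x₀ ℓ T) {x : M} (hx : x ∈ D) : Lip fun u => T x (ℓ - u) :=
  (h.lip x hx).comp fun u v => by rw [abs_sub_comm u v]; apply le_of_eq; congr 1; ring

section Compact

variable [CompactSpace M] {w v : ℝ →ᵇ M}

theorem cut_mem (h : Tr D x₀ ℓ T) (ht : 0 ≤ t) (hw : w ∈ FLD D t) :
    cut T ℓ t w ∈ P x₀ x₀ (t + 2 * ℓ) :=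
  mo_cj_mem_P (h.lip _ hw.2) hw.1.1 ht h.nonneg (h.left _ hw.2 0 le_rfl).symm
    (by rw [hw.1.2.2 t le_rfl, h.left _ hw.2 0 le_rfl]) (h.right _ hw.2)

theorem back_mem (h : Tr D x₀ ℓ T) (ht : 0 ≤ t) {p : M × (ℝ →ᵇ M)} (hx : p.1 ∈ D)
    (hv : p.2 ∈ P x₀ x₀ t) : back T ℓ t p ∈ P p.1 p.1 (t + 2 * ℓ) := by
  have e : T p.1 (ℓ - 0) = x₀ := by rw [sub_zero]; exact h.right _ hx _ le_rfl
  refine mo_cj_mem_P (h.liprev hx) hv.1 ht h.nonneg ?_ ?_ fun u hu => ?_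
  · show p.2 0 = T p.1 (ℓ - 0)
    rw [e, eq_left hv le_rfl]
  · show p.2 t = T p.1 (ℓ - 0)
    rw [e, eq_right hv le_rfl]
  · exact h.left _ hx _ (by linarith)

theorem back_zero (h : Tr D x₀ ℓ T) (ht : 0 ≤ t) {p : M × (ℝ →ᵇ M)} (hx : p.1 ∈ D)
    (hv : p.2 ∈ P x₀ x₀ t) : back T ℓ t p 0 = p.1 := eq_left (h.back_mem ht hx hv) le_rfl

theorem back_memD (h : Tr D x₀ ℓ T) (ht : 0 ≤ t) {p : M × (ℝ →ᵇ M)} (hx : p.1 ∈ D)
    (hv : p.2 ∈ P x₀ x₀ t) : back T ℓ t p ∈ FLD D (t + 2 * ℓ) :=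
  ⟨P_subset_FL (h.back_mem ht hx hv), by rw [h.back_zero ht hx hv]; exact hx⟩

/-- `cut`, jointly with the time -/
theorem continuousOn_cut' (h : Tr D x₀ ℓ T) {S : Type*} [TopologicalSpace S] {A : Set S}
    {W : S → ℝ →ᵇ M} {τ : S → ℝ} {C : ℝ} (hW : ContinuousOn W A) (hτ : ContinuousOn τ A)
    (h0 : ∀ s ∈ A, 0 ≤ τ s) (hC : ∀ s ∈ A, τ s ≤ C) (hm : ∀ s ∈ A, W s ∈ FLD D (τ s)) :
    ContinuousOn (fun s => cut T ℓ (τ s) (W s)) A := by
  have hX : ContinuousOn (fun s => W s 0) A := continuousOn_eval hW continuousOn_const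
  refine continuousOn_of_eval (t := max 0 (C + 2 * ℓ)) (le_max_left _ _) (fun s hs => ?_) fun u => ?_
  · exact PP_mono ((by linarith [hC s hs] : τ s + 2 * ℓ ≤ C + 2 * ℓ).trans (le_max_right _ _))
      (P_subset_PP (h.cut_mem (h0 s hs) (hm s hs)))
  · refine ContinuousOn.congr (f := fun s => cj ℓ (τ s) (T (W s 0)) (W s) u) ?_ fun s hs => ?_
    · refine continuousOn_cj u continuousOn_const hτ (fun φ hφ => ?_) (fun φ hφ => ?_) h0
        (fun s hs => ?_) fun s hs => ?_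
      · exact h.cont' hX (fun s hs => (hm s hs).2) hφ
      · exact continuousOn_eval hW hφ
      · exact (h.left _ (hm s hs).2 0 le_rfl).symm
      · rw [(hm s hs).1.2.2 _ le_rfl, h.left _ (hm s hs).2 0 le_rfl]
    · have hs' := hm s hs
      refine (lip_cj (h.lip _ hs'.2) hs'.1.1 (h0 s hs) (h.left _ hs'.2 0 le_rfl).symm ?_).mo_apply u
      rw [hs'.1.2.2 _ le_rfl, h.left _ hs'.2 0 le_rfl]

theorem continuousOn_cut (h : Tr D x₀ ℓ T) (ht : 0 ≤ t) : ContinuousOn (cut T ℓ t) (FLD D t) :=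
  h.continuousOn_cut' (C := t) continuousOn_id continuousOn_const (fun _ _ => ht)
    (fun _ _ => le_rfl) fun _ hs => hs

/-- `back`, jointly with the time -/
theorem continuousOn_back' (h : Tr D x₀ ℓ T) {S : Type*} [TopologicalSpace S] {A : Set S}
    {X : S → M} {W : S → ℝ →ᵇ M} {τ : S → ℝ} {C : ℝ} (hX : ContinuousOn X A)
    (hW : ContinuousOn W A) (hτ : ContinuousOn τ A) (h0 : ∀ s ∈ A, 0 ≤ τ s)
    (hC : ∀ s ∈ A, τ s ≤ C) (hXD : ∀ s ∈ A, X s ∈ D) (hm : ∀ s ∈ A, W s ∈ P x₀ x₀ (τ s)) :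
    ContinuousOn (fun s => back T ℓ (τ s) (X s, W s)) A := by
  refine continuousOn_of_eval (t := max 0 (C + 2 * ℓ)) (le_max_left _ _) (fun s hs => ?_) fun u => ?_
  · exact PP_mono ((by linarith [hC s hs] : τ s + 2 * ℓ ≤ C + 2 * ℓ).trans (le_max_right _ _))
      (P_subset_PP (h.back_mem (p := (X s, W s)) (h0 s hs) (hXD s hs) (hm s hs)))
  · have key : ∀ s ∈ A, T (X s) (ℓ - 0) = x₀ := fun s hs => by
      rw [sub_zero]; exact h.right _ (hXD s hs) _ le_rfl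
    refine ContinuousOn.congr (f := fun s => cj ℓ (τ s) (fun u => T (X s) (ℓ - u)) (W s) u) ?_
      fun s hs => ?_
    · refine continuousOn_cj u continuousOn_const hτ (fun φ hφ => ?_) (fun φ hφ => ?_) h0
        (fun s hs => ?_) fun s hs => ?_
      · exact h.cont' hX hXD (continuousOn_const.sub hφ)
      · exact continuousOn_eval hW hφ
      · show W s 0 = T (X s) (ℓ - 0)
        rw [key s hs, eq_left (hm s hs) le_rfl]
      · show W s (τ s) = T (X s) (ℓ - 0)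
        rw [key s hs, eq_right (hm s hs) le_rfl]
    · refine (lip_cj (h.liprev (hXD s hs)) (hm s hs).1 (h0 s hs) ?_ ?_).mo_apply u
      · show W s 0 = T (X s) (ℓ - 0)
        rw [key s hs, eq_left (hm s hs) le_rfl]
      · show W s (τ s) = T (X s) (ℓ - 0)
        rw [key s hs, eq_right (hm s hs) le_rfl]

theorem continuousOn_back (h : Tr D x₀ ℓ T) (ht : 0 ≤ t) :
    ContinuousOn (back T ℓ t) (D ×ˢ P x₀ x₀ t) :=
  h.continuousOn_back' (C := t) continuousOn_fst continuousOn_snd continuousOn_const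
    (fun _ _ => ht) (fun _ _ => le_rfl) (fun _ hs => hs.1) fun _ hs => hs.2

/-! ### The homotopies -/

/-- first homotopy: from `w` to `back (w 0, cut w)` -/
noncomputable def htA (T : M → ℝ → M) (ℓ t : ℝ) (p : ℝ × (ℝ →ᵇ M)) : ℝ →ᵇ M :=
  mo (cj (min 1 (2 * p.1) * (2 * ℓ)) t
    (fun u => T (p.2 0) (min (max 0 (2 * p.1 - 1) * ℓ) (ℓ - |u - ℓ|))) p.2)

/-- second homotopy: from `v` to `cut (back (x, v))` -/
noncomputable def htB (T : M → ℝ → M) (ℓ t : ℝ) (p : ℝ × (M × (ℝ →ᵇ M))) : ℝ →ᵇ M :=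
  mo (cj (min 1 (2 * p.1) * (2 * ℓ)) t
    (fun u => T p.2.1 (max (ℓ - max 0 (2 * p.1 - 1) * ℓ) |u - ℓ|)) p.2.2)

section A

variable {l : ℝ}

theorem qA_lip (h : Tr D x₀ ℓ T) {x : M} (hx : x ∈ D) (σ : ℝ) :
    Lip fun u => T x (min σ (ℓ - |u - ℓ|)) := by
  refine (h.lip x hx).comp fun u v => ?_
  refine (abs_min_sub_min_le_max _ _ _ _).trans (max_le (by simp) ?_)
  have e : ℓ - |u - ℓ| - (ℓ - |v - ℓ|) = |v - ℓ| - |u - ℓ| := by ring
  rw [e]
  refine (abs_abs_sub_abs_le_abs_sub _ _).trans (le_of_eq ?_)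
  rw [abs_sub_comm]
  congr 1
  ring

theorem qA_zero (h : Tr D x₀ ℓ T) {x : M} (hx : x ∈ D) (σ : ℝ) :
    T x (min σ (ℓ - |0 - ℓ|)) = x := by
  refine h.left x hx _ ((min_le_right _ _).trans ?_)
  rw [zero_sub, abs_neg, abs_of_nonneg h.nonneg, sub_self]

theorem qA_ge (h : Tr D x₀ ℓ T) {x : M} (hx : x ∈ D) (hl : 0 ≤ l) {u : ℝ}
    (hu : min 1 (2 * l) * (2 * ℓ) ≤ u) : T x (min (max 0 (2 * l - 1) * ℓ) (ℓ - |u - ℓ|)) = x := by
  have hn := h.nonneg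
  refine h.left x hx _ ?_
  rcases le_total (2 * l) 1 with h1 | h1
  · rw [max_eq_left (by linarith), zero_mul]
    exact min_le_left _ _
  · rw [min_eq_left h1, one_mul] at hu
    refine (min_le_right _ _).trans ?_
    rw [abs_of_nonneg (by linarith)]
    linarith

theorem mL_nonneg (h : Tr D x₀ ℓ T) (hl : 0 ≤ l) : 0 ≤ min 1 (2 * l) * (2 * ℓ) :=
  mul_nonneg (le_min zero_le_one (by linarith)) (by linarith [h.nonneg])

theorem mL_le (h : Tr D x₀ ℓ T) : min 1 (2 * l) * (2 * ℓ) ≤ 2 * ℓ := by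
  have := mul_le_mul_of_nonneg_right (min_le_left 1 (2 * l)) (by linarith [h.nonneg] : (0:ℝ) ≤ 2 * ℓ)
  linarith

theorem htA_mem (h : Tr D x₀ ℓ T) (ht : 0 ≤ t) (hl : 0 ≤ l) (hw : w ∈ FLD D t) :
    htA T ℓ t (l, w) ∈ P (w 0) (w 0) (t + 4 * ℓ) := by
  refine P_mono (t := t + 2 * (min 1 (2 * l) * (2 * ℓ))) (by linarith [h.mL_le (l := l)]) ?_
  refine mo_cj_mem_P (h.qA_lip hw.2 _) hw.1.1 ht (h.mL_nonneg hl) ?_ ?_ ?_
  · exact (h.qA_zero hw.2 _).symm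
  · exact (hw.1.2.2 t le_rfl).trans (h.qA_zero hw.2 _).symm
  · intro u hu
    exact h.qA_ge hw.2 hl hu

theorem htA_zero (h : Tr D x₀ ℓ T) (ht : 0 ≤ t) (hw : w ∈ FLD D t) : htA T ℓ t (0, w) = w := by
  have e : (fun u => T (w 0) (min (max 0 (2 * (0:ℝ) - 1) * ℓ) (ℓ - |u - ℓ|))) = fun _ => w 0 := by
    funext u
    refine h.left _ hw.2 _ ((min_le_left _ _).trans ?_)
    rw [max_eq_left (by norm_num), zero_mul]
  unfold htA
  simp only [mul_zero]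
  simp only [mul_zero] at e
  rw [e, min_eq_right zero_le_one, zero_mul]
  have e2 : cj 0 t (fun _ => w 0) w = fun u => w u := by
    funext u
    rw [cj_const w (w 0) ht hw.1.2.1 hw.1.2.2, sub_zero]
  rw [e2, mo_self]

theorem htA_one (h : Tr D x₀ ℓ T) (ht : 0 ≤ t) (hw : w ∈ FLD D t) :
    htA T ℓ t (1, w) = back T ℓ (t + 2 * ℓ) (w 0, cut T ℓ t w) := by
  have hn := h.nonneg
  unfold htA back
  congr 1
  funext u
  have e0 : w 0 = T (w 0) 0 := (h.left _ hw.2 0 le_rfl).symm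
  have e1 : w t = T (w 0) 0 := (hw.1.2.2 t le_rfl).trans e0
  have ec : (fun u => (cut T ℓ t w) u) = cj ℓ t (T (w 0)) w := by
    funext u
    exact (lip_cj (h.lip _ hw.2) hw.1.1 ht e0 e1).mo_apply u
  show cj (min 1 (2 * 1) * (2 * ℓ)) t (fun u => T (w 0) (min (max 0 (2 * 1 - 1) * ℓ) (ℓ - |u - ℓ|)))
    w u = cj ℓ (t + 2 * ℓ) (fun u => T (w 0) (ℓ - u)) (fun u => (cut T ℓ t w) u) u
  rw [ec, cj_cj ht hn hn e0 e1 (by rw [sub_zero]) (fun u hu => by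
    rw [h.right _ hw.2 u hu, h.right _ hw.2 ℓ le_rfl])]
  have em : min 1 (2 * (1:ℝ)) * (2 * ℓ) = ℓ + ℓ := by norm_num; ring
  have eq : (fun u => T (w 0) (min (max 0 (2 * 1 - 1) * ℓ) (ℓ - |u - ℓ|))) =
      catf ℓ (T (w 0)) (fun u => T (w 0) (ℓ - u)) := by
    funext u
    have e3 : max 0 (2 * (1:ℝ) - 1) * ℓ = ℓ := by norm_num
    rw [e3]
    rcases le_total u ℓ with h1 | h1
    · rw [catf_left h1, abs_of_nonpos (by linarith), min_eq_right (by linarith)]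
      congr 1; ring
    · rw [catf_right (by rw [sub_zero]) h1, abs_of_nonneg (by linarith), min_eq_right (by linarith)]
  rw [em, eq]

theorem continuousOn_htA (h : Tr D x₀ ℓ T) (ht : 0 ≤ t) :
    ContinuousOn (htA T ℓ t) (Icc (0:ℝ) 1 ×ˢ FLD D t) := by
  have hW : ContinuousOn (fun p : ℝ × (ℝ →ᵇ M) => p.2) (Icc (0:ℝ) 1 ×ˢ FLD D t) := continuousOn_snd
  have hX : ContinuousOn (fun p : ℝ × (ℝ →ᵇ M) => p.2 0) (Icc (0:ℝ) 1 ×ˢ FLD D t) :=
    continuousOn_eval hW continuousOn_const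
  have hn := h.nonneg
  refine continuousOn_of_eval (t := t + 4 * ℓ) (by linarith) (fun p hp => ?_) fun u => ?_
  · exact P_subset_PP (h.htA_mem (l := p.1) (w := p.2) ht hp.1.1 hp.2)
  · refine ContinuousOn.congr (f := fun p : ℝ × (ℝ →ᵇ M) => cj (min 1 (2 * p.1) * (2 * ℓ)) t
      (fun u => T (p.2 0) (min (max 0 (2 * p.1 - 1) * ℓ) (ℓ - |u - ℓ|))) p.2 u) ?_ fun p hp => ?_
    · refine continuousOn_cj u ?_ continuousOn_const (fun φ hφ => ?_) (fun φ hφ => ?_)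
        (fun _ _ => ht) (fun p hp => ?_) fun p hp => ?_
      · fun_prop
      · refine h.cont' hX (fun p hp => hp.2.2) ?_
        fun_prop
      · exact continuousOn_eval hW hφ
      · exact (h.qA_zero hp.2.2 _).symm
      · exact (hp.2.1.2.2 t le_rfl).trans (h.qA_zero hp.2.2 _).symm
    · exact (lip_cj (h.qA_lip hp.2.2 _) hp.2.1.1 ht (h.qA_zero hp.2.2 _).symm
        ((hp.2.1.2.2 t le_rfl).trans (h.qA_zero hp.2.2 _).symm)).mo_apply u

end A

section B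

variable {l : ℝ}

theorem qB_lip (h : Tr D x₀ ℓ T) {x : M} (hx : x ∈ D) (σ : ℝ) :
    Lip fun u => T x (max σ |u - ℓ|) := by
  refine (h.lip x hx).comp fun u v => ?_
  refine (abs_max_sub_max_le_max _ _ _ _).trans (max_le (by simp) ?_)
  refine (abs_abs_sub_abs_le_abs_sub _ _).trans (le_of_eq ?_)
  congr 1
  ring

theorem qB_zero (h : Tr D x₀ ℓ T) {x : M} (hx : x ∈ D) (σ : ℝ) :
    T x (max σ |0 - ℓ|) = x₀ := by
  refine h.right x hx _ (le_trans ?_ (le_max_right _ _))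
  rw [zero_sub, abs_neg, abs_of_nonneg h.nonneg]

theorem qB_ge (h : Tr D x₀ ℓ T) {x : M} (hx : x ∈ D) (hl : 0 ≤ l) {u : ℝ}
    (hu : min 1 (2 * l) * (2 * ℓ) ≤ u) : T x (max (ℓ - max 0 (2 * l - 1) * ℓ) |u - ℓ|) = x₀ := by
  have hn := h.nonneg
  refine h.right x hx _ ?_
  rcases le_total (2 * l) 1 with h1 | h1
  · rw [max_eq_left (by linarith : 2 * l - 1 ≤ 0), zero_mul, sub_zero]
    exact le_max_left _ _
  · rw [min_eq_left h1, one_mul] at hu
    refine le_trans ?_ (le_max_right _ _)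
    rw [abs_of_nonneg (by linarith)]
    linarith

theorem htB_mem (h : Tr D x₀ ℓ T) (ht : 0 ≤ t) (hl : 0 ≤ l) {x : M} (hx : x ∈ D)
    (hv : v ∈ P x₀ x₀ t) : htB T ℓ t (l, (x, v)) ∈ P x₀ x₀ (t + 4 * ℓ) := by
  refine P_mono (t := t + 2 * (min 1 (2 * l) * (2 * ℓ))) (by linarith [h.mL_le (l := l)]) ?_
  refine mo_cj_mem_P (h.qB_lip hx _) hv.1 ht (h.mL_nonneg hl) ?_ ?_ ?_
  · exact (eq_left hv le_rfl).trans (h.qB_zero hx _).symm
  · exact (eq_right hv le_rfl).trans (h.qB_zero hx _).symm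
  · intro u hu
    exact h.qB_ge hx hl hu

theorem htB_zero (h : Tr D x₀ ℓ T) (ht : 0 ≤ t) {x : M} (hx : x ∈ D) (hv : v ∈ P x₀ x₀ t) :
    htB T ℓ t (0, (x, v)) = v := by
  have e : (fun u => T x (max (ℓ - max 0 (2 * (0:ℝ) - 1) * ℓ) |u - ℓ|)) = fun _ => x₀ := by
    funext u
    refine h.right _ hx _ (le_trans ?_ (le_max_left _ _))
    rw [max_eq_left (by norm_num : 2 * (0:ℝ) - 1 ≤ 0), zero_mul, sub_zero]
  unfold htB
  simp only [mul_zero]
  simp only [mul_zero] at e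
  rw [e, min_eq_right zero_le_one, zero_mul]
  have e2 : cj 0 t (fun _ => x₀) v = fun u => v u := by
    funext u
    rw [cj_const v x₀ ht hv.2.1 hv.2.2, sub_zero]
  rw [e2, mo_self]

theorem htB_one (h : Tr D x₀ ℓ T) (ht : 0 ≤ t) {x : M} (hx : x ∈ D) (hv : v ∈ P x₀ x₀ t) :
    htB T ℓ t (1, (x, v)) = cut T ℓ (t + 2 * ℓ) (back T ℓ t (x, v)) := by
  have hn := h.nonneg
  have hb0 : back T ℓ t (x, v) 0 = x := h.back_zero ht hx hv
  unfold cut
  rw [hb0]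
  unfold htB
  congr 1
  funext u
  have e0 : v 0 = T x (ℓ - 0) := by
    rw [sub_zero, h.right _ hx _ le_rfl, eq_left hv le_rfl]
  have e1 : v t = T x (ℓ - 0) := by
    rw [sub_zero, h.right _ hx _ le_rfl, eq_right hv le_rfl]
  have ec : (fun u => (back T ℓ t (x, v)) u) = cj ℓ t (fun u => T x (ℓ - u)) v := by
    funext u
    exact (lip_cj (h.liprev hx) hv.1 ht e0 e1).mo_apply u
  show cj (min 1 (2 * 1) * (2 * ℓ)) t (fun u => T x (max (ℓ - max 0 (2 * 1 - 1) * ℓ) |u - ℓ|))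
    v u = cj ℓ (t + 2 * ℓ) (T x) (fun u => (back T ℓ t (x, v)) u) u
  rw [ec, cj_cj (q := fun u => T x (ℓ - u)) (q' := T x) ht hn hn e0 e1 (by
      show T x (ℓ - ℓ) = T x 0
      rw [sub_self]) (fun u hu => by
    show T x (ℓ - u) = T x (ℓ - ℓ)
    rw [sub_self, h.left _ hx _ (by linarith), h.left _ hx 0 le_rfl])]
  have em : min 1 (2 * (1:ℝ)) * (2 * ℓ) = ℓ + ℓ := by norm_num; ring
  have eq : (fun u => T x (max (ℓ - max 0 (2 * 1 - 1) * ℓ) |u - ℓ|)) =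
      catf ℓ (fun u => T x (ℓ - u)) (T x) := by
    funext u
    have e3 : ℓ - max 0 (2 * (1:ℝ) - 1) * ℓ = 0 := by norm_num
    rw [e3, max_eq_right (abs_nonneg _)]
    rcases le_total u ℓ with h1 | h1
    · rw [catf_left h1, abs_of_nonpos (by linarith)]
      congr 1; ring
    · rw [catf_right (by rw [sub_self]) h1, abs_of_nonneg (by linarith)]
  rw [em, eq]

theorem continuousOn_htB (h : Tr D x₀ ℓ T) (ht : 0 ≤ t) :
    ContinuousOn (htB T ℓ t) (Icc (0:ℝ) 1 ×ˢ (D ×ˢ P x₀ x₀ t)) := by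
  have hW : ContinuousOn (fun p : ℝ × (M × (ℝ →ᵇ M)) => p.2.2) (Icc (0:ℝ) 1 ×ˢ (D ×ˢ P x₀ x₀ t)) := by
    fun_prop
  have hX : ContinuousOn (fun p : ℝ × (M × (ℝ →ᵇ M)) => p.2.1) (Icc (0:ℝ) 1 ×ˢ (D ×ˢ P x₀ x₀ t)) := by
    fun_prop
  have hn := h.nonneg
  refine continuousOn_of_eval (t := t + 4 * ℓ) (by linarith) (fun p hp => ?_) fun u => ?_
  · exact P_subset_PP (h.htB_mem (l := p.1) (x := p.2.1) (v := p.2.2) ht hp.1.1 hp.2.1 hp.2.2)
  · refine ContinuousOn.congr (f := fun p : ℝ × (M × (ℝ →ᵇ M)) => cj (min 1 (2 * p.1) * (2 * ℓ)) t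
      (fun u => T p.2.1 (max (ℓ - max 0 (2 * p.1 - 1) * ℓ) |u - ℓ|)) p.2.2 u) ?_ fun p hp => ?_
    · refine continuousOn_cj u ?_ continuousOn_const (fun φ hφ => ?_) (fun φ hφ => ?_)
        (fun _ _ => ht) (fun p hp => ?_) fun p hp => ?_
      · fun_prop
      · refine h.cont' hX (fun p hp => hp.2.1) ?_
        fun_prop
      · exact continuousOn_eval hW hφ
      · exact (eq_left hp.2.2 le_rfl).trans (h.qB_zero hp.2.1 _).symm
      · exact (eq_right hp.2.2 le_rfl).trans (h.qB_zero hp.2.1 _).symm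
    · exact (lip_cj (h.qB_lip hp.2.1 _) hp.2.2.1 ht
        ((eq_left hp.2.2 le_rfl).trans (h.qB_zero hp.2.1 _).symm)
        ((eq_right hp.2.2 le_rfl).trans (h.qB_zero hp.2.1 _).symm)).mo_apply u

end B

end Compact

end Tr

end Vale.Agent.P216.MV337
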