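import Vale.Agent.P216.MV337.Pg
import Vale.Agent.P216.MV337.Triv
import Vale.Agent.P216.MV337.Caps

/-!
# P216-B, block [MV], geometry: tracks from a nullhomotopy
-/

set_option linter.all false

namespace Vale.Agent.P216.MV337

open Set Filter Topology BoundedContinuousFunction
open Vale.Agent.P216.PS

variable {M : Type*} [MetricSpace M] {D : Set M} {x₀ : M} {ℓ ℓ' : ℝ} {T : M → ℝ → M}

/-- The time of the tracks may be enlarged. -/
theorem Tr.le (h : Tr D x₀ ℓ T) (hl : ℓ ≤ ℓ') : Tr D x₀ ℓ' T where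
  nonneg := h.nonneg.trans hl
  lip := h.lip
  left := h.left
  right x hx u hu := h.right x hx u (hl.trans hu)
  cont := h.cont

/-- **Tracks from a nullhomotopy**, in a compact space with unique short segments. -/
theorem exists_tracks [CompactSpace M] {ρ : ℝ} (hρ : 0 < ρ) (hU : LS.UniqSeg M ρ) (hD : IsCompact D)
    {H : M × ℝ → M} (hc : ContinuousOn H (D ×ˢ Icc (0:ℝ) 1)) (h0 : ∀ x ∈ D, H (x, 0) = x)
    (h1 : ∀ x ∈ D, H (x, 1) = x₀) : ∃ ℓ T, Tr D x₀ ℓ T := by
  have huc := (hD.prod isCompact_Icc).uniformContinuousOn_of_continuous hc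
  rw [Metric.uniformContinuousOn_iff] at huc
  obtain ⟨δ, hδ, huc⟩ := huc (ρ / 2) (by linarith)
  obtain ⟨N, hN⟩ := exists_nat_gt (1 / δ)
  have hN0 : (0:ℝ) < N := (by positivity : 0 < 1 / δ).trans hN
  have hN1 : 1 / (N:ℝ) < δ := by
    rw [div_lt_iff₀ hN0]
    rw [div_lt_iff₀ hδ] at hN
    linarith
  have hmem : ∀ i : ℕ, i ≤ N → (i:ℝ) / N ∈ Icc (0:ℝ) 1 := fun i hi =>
    ⟨by positivity, (div_le_one hN0).2 (by exact_mod_cast hi)⟩
  have hd : ∀ x ∈ D, ∀ i < N, dist (H (x, (i:ℝ) / N)) (H (x, ((i + 1 : ℕ):ℝ) / N)) < ρ / 2 := by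
    intro x hx i hi
    refine huc _ ⟨hx, hmem i hi.le⟩ _ ⟨hx, hmem (i + 1) hi⟩ ?_
    rw [Prod.dist_eq, dist_self, max_eq_right dist_nonneg, Real.dist_eq]
    have e : (i:ℝ) / N - ((i + 1 : ℕ):ℝ) / N = - (1 / N) := by push_cast; ring
    rw [e, abs_neg, abs_of_pos (by positivity)]
    exact hN1
  have hr : ∀ i : ℕ, i < N → (0:ℝ) < (fun _ : ℕ => ρ / 2) i := fun _ _ => by
    show 0 < ρ / 2
    linarith
  refine ⟨N * (ρ / 2), fun x u => pg (fun i => H (x, (i:ℝ) / N)) (fun _ => ρ / 2) N u, ?_, ?_, ?_, ?_, ?_⟩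
  · positivity
  · intro x hx u v
    have := dist_pg_le (x := fun i : ℕ => H (x, (i:ℝ) / N)) (Δ := fun _ => ρ / 2) (n := N) hU
      zero_le_one hr (fun i hi => (hd x hx i hi).trans (by linarith))
      (fun i hi => by rw [one_mul]; exact (hd x hx i hi).le) u v
    rwa [one_mul] at this
  · intro x hx u hu
    show pg _ _ N u = x
    rw [pg_of_nonpos hr hu]
    show H (x, ((0:ℕ):ℝ) / N) = x
    rw [Nat.cast_zero, zero_div, h0 x hx]
  · intro x hx u hu
    show pg _ _ N u = x₀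
    rw [pg_of_ge hr (by rw [cs_const]; exact hu)]
    show H (x, (N:ℝ) / N) = x₀
    rw [div_self hN0.ne', h1 x hx]
  · refine continuousOn_pg (S := M × ℝ) (X := fun p i => H (p.1, (i:ℝ) / N)) (D := fun _ _ => ρ / 2)
      (U := fun p => p.2) hU (fun i hi => ?_) (fun _ _ => continuousOn_const) continuousOn_snd
      (fun p _ i hi => hr i hi) fun p hp i hi => (hd p.1 hp.1 i hi).trans (by linarith)
    exact hc.comp (continuousOn_fst.prodMk continuousOn_const) fun p hp => ⟨hp.1, hmem i hi⟩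

end Vale.Agent.P216.MV337
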