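import Vale.Agent.P216.LS.Seg
import Vale.Agent.P216.L250.Energy

/-!
# P216-B, block [MV], geometry: polygonal paths with durations

`pg x Δ n u`: start at `x 0`, go from `x i` to `x (i + 1)` in time `Δ i` along the short segment, for
`i < n`, then wait at `x n`; `u` is the time.
-/

set_option linter.all false

namespace Vale.Agent.P216.MV337

open Set Filter Topology
open Vale.Agent.P216.LS (UniqSeg seg seg_zero seg_one seg_self seg_spec dist_seg_seg dist_seg_seg_le)
open Vale.Agent.P216.L250 (Cert HasE)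

variable {M : Type*} [MetricSpace M]

/-- partial sums of the durations -/
noncomputable def cs (Δ : ℕ → ℝ) (n : ℕ) : ℝ := ∑ i ∈ Finset.range n, Δ i

@[simp] theorem cs_zero (Δ : ℕ → ℝ) : cs Δ 0 = 0 := by simp [cs]

theorem cs_succ (Δ : ℕ → ℝ) (n : ℕ) : cs Δ (n + 1) = cs Δ n + Δ n := Finset.sum_range_succ _ _

theorem cs_const (r : ℝ) (n : ℕ) : cs (fun _ => r) n = n * r := by
  simp [cs]

theorem cs_nonneg {Δ : ℕ → ℝ} {n : ℕ} (h : ∀ i < n, 0 < Δ i) : 0 ≤ cs Δ n :=
  Finset.sum_nonneg fun i hi => (h i (Finset.mem_range.1 hi)).le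

theorem cs_le {Δ : ℕ → ℝ} {n m : ℕ} (h : ∀ i < n, 0 < Δ i) (hm : m ≤ n) : cs Δ m ≤ cs Δ n :=
  Finset.sum_le_sum_of_subset_of_nonneg (Finset.range_mono hm) fun i hi _ =>
    (h i (Finset.mem_range.1 hi)).le

theorem cs_mul (c : ℝ) (Δ : ℕ → ℝ) (n : ℕ) : cs (fun i => c * Δ i) n = c * cs Δ n := by
  unfold cs; rw [Finset.mul_sum]

/-- the polygonal path -/
noncomputable def pg (x : ℕ → M) (Δ : ℕ → ℝ) : ℕ → ℝ → M
  | 0, _ => x 0
  | n + 1, u => if u ≤ cs Δ n then pg x Δ n u else seg (x n) (x (n + 1)) (min 1 ((u - cs Δ n) / Δ n))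

variable {x : ℕ → M} {Δ : ℕ → ℝ} {n : ℕ} {u : ℝ}

@[simp] theorem pg_zero_n (x : ℕ → M) (Δ : ℕ → ℝ) (u : ℝ) : pg x Δ 0 u = x 0 := rfl

theorem pg_succ (x : ℕ → M) (Δ : ℕ → ℝ) (n : ℕ) (u : ℝ) : pg x Δ (n + 1) u =
    if u ≤ cs Δ n then pg x Δ n u else seg (x n) (x (n + 1)) (min 1 ((u - cs Δ n) / Δ n)) := rfl

theorem pg_of_nonpos (h : ∀ i < n, 0 < Δ i) (hu : u ≤ 0) : pg x Δ n u = x 0 := by
  induction n with
  | zero => rfl
  | succ n ih =>
    have h' : ∀ i < n, 0 < Δ i := fun i hi => h i (hi.trans (Nat.lt_succ_self n))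
    rw [pg_succ, if_pos (hu.trans (cs_nonneg h')), ih h']

theorem pg_of_ge (h : ∀ i < n, 0 < Δ i) (hu : cs Δ n ≤ u) : pg x Δ n u = x n := by
  cases n with
  | zero => rfl
  | succ n =>
    have h1 := h n (Nat.lt_succ_self n)
    rw [cs_succ] at hu
    rw [pg_succ, if_neg (by linarith), min_eq_left, seg_one]
    rw [le_div_iff₀ h1]
    linarith

theorem pg_succ_ge (h : ∀ i < n, 0 < Δ i) (hu : cs Δ n ≤ u) : pg x Δ (n + 1) u =
    seg (x n) (x (n + 1)) (min 1 ((u - cs Δ n) / Δ n)) := by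
  rcases hu.eq_or_lt with h1 | h1
  · rw [pg_succ, if_pos h1.ge, pg_of_ge h hu, ← h1, sub_self, zero_div,
      min_eq_right zero_le_one, seg_zero]
  · rw [pg_succ, if_neg (not_le.2 h1)]

theorem pg_succ_le (hu : u ≤ cs Δ n) : pg x Δ (n + 1) u = pg x Δ n u := by
  rw [pg_succ, if_pos hu]

/-- only the data of index `≤ n` matter -/
theorem pg_congr {x' : ℕ → M} {Δ' : ℕ → ℝ} (h : ∀ i ≤ n, x i = x' i) (h' : ∀ i < n, Δ i = Δ' i) :
    pg x Δ n u = pg x' Δ' n u := by
  induction n with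
  | zero => exact h 0 le_rfl
  | succ n ih =>
    have e : cs Δ n = cs Δ' n := Finset.sum_congr rfl fun i hi =>
      h' i ((Finset.mem_range.1 hi).trans (Nat.lt_succ_self n))
    rw [pg_succ, pg_succ, e, h' n (Nat.lt_succ_self n), h n (Nat.le_succ n), h (n + 1) le_rfl,
      ih (fun i hi => h i (hi.trans (Nat.le_succ n))) fun i hi => h' i (hi.trans (Nat.lt_succ_self n))]

/-- change of speed -/
theorem pg_scale {c : ℝ} (hc : 0 < c) (x : ℕ → M) (Δ : ℕ → ℝ) (n : ℕ) (u : ℝ) :
    pg x (fun i => c * Δ i) n (c * u) = pg x Δ n u := by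
  induction n with
  | zero => rfl
  | succ n ih =>
    rw [pg_succ, pg_succ, cs_mul, ih]
    have e1 : (c * u ≤ c * cs Δ n) = (u ≤ cs Δ n) := by
      rw [mul_le_mul_iff_right₀ hc]
    have e2 : (c * u - c * cs Δ n) / (c * Δ n) = (u - cs Δ n) / Δ n := by
      rw [← mul_sub, mul_div_mul_left _ _ hc.ne']
    by_cases h : u ≤ cs Δ n
    · rw [if_pos h, if_pos (by rw [e1]; exact h)]
    · rw [if_neg h, if_neg (by rw [e1]; exact h), e2]

theorem pg_const (hx : ∀ i ≤ n, x i = x 0) : pg x Δ n u = x 0 := by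
  rw [pg_congr (x' := fun _ => x 0) (Δ' := Δ) hx fun _ _ => rfl]
  clear hx
  induction n with
  | zero => rfl
  | succ n ih =>
    rw [pg_succ, ih]
    split_ifs
    · rfl
    · exact seg_self _ _

section lip

variable {ρ L : ℝ}

/-- `pg` is `L`-Lipschitz when the speeds are at most `L` -/
theorem dist_pg_le (hU : UniqSeg M ρ) (hL : 0 ≤ L) (h : ∀ i < n, 0 < Δ i)
    (hρ : ∀ i < n, dist (x i) (x (i + 1)) < ρ) (hd : ∀ i < n, dist (x i) (x (i + 1)) ≤ L * Δ i)
    (u v : ℝ) : dist (pg x Δ n u) (pg x Δ n v) ≤ L * |u - v| := by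
  wlog huv : u ≤ v generalizing u v
  · rw [dist_comm, abs_sub_comm]
    exact this v u (le_of_not_ge huv)
  rw [abs_of_nonpos (sub_nonpos.2 huv), neg_sub]
  induction n generalizing u v with
  | zero =>
    rw [pg_zero_n, pg_zero_n, dist_self]
    exact mul_nonneg hL (sub_nonneg.2 huv)
  | succ n ih =>
    have h' : ∀ i < n, 0 < Δ i := fun i hi => h i (hi.trans (Nat.lt_succ_self n))
    have hρ' : ∀ i < n, dist (x i) (x (i + 1)) < ρ := fun i hi => hρ i (hi.trans (Nat.lt_succ_self n))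
    have hd' : ∀ i < n, dist (x i) (x (i + 1)) ≤ L * Δ i := fun i hi => hd i (hi.trans (Nat.lt_succ_self n))
    have hΔ := h n (Nat.lt_succ_self n)
    -- both after the break point
    have key : ∀ u v : ℝ, cs Δ n ≤ u → u ≤ v →
        dist (pg x Δ (n + 1) u) (pg x Δ (n + 1) v) ≤ L * (v - u) := by
      intro u v hu huv
      rw [pg_succ_ge h' hu, pg_succ_ge h' (hu.trans huv)]
      have a0 : 0 ≤ (u - cs Δ n) / Δ n := div_nonneg (by linarith) hΔ.le
      have a1 : (u - cs Δ n) / Δ n ≤ (v - cs Δ n) / Δ n := by gcongr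
      rw [dist_seg_seg_le hU (hρ n (Nat.lt_succ_self n)) (le_min zero_le_one a0)
        (min_le_min_left _ a1) (min_le_left _ _)]
      have a2 : min 1 ((v - cs Δ n) / Δ n) - min 1 ((u - cs Δ n) / Δ n) ≤ (v - u) / Δ n := by
        have a3 : (v - u) / Δ n = (v - cs Δ n) / Δ n - (u - cs Δ n) / Δ n := by
          rw [← sub_div]; congr 1; ring
        rw [a3]
        rcases le_total 1 ((u - cs Δ n) / Δ n) with b1 | b1
        · rw [min_eq_left b1, min_eq_left (b1.trans a1)]
          linarith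
        · rw [min_eq_right b1]
          linarith [min_le_right 1 ((v - cs Δ n) / Δ n)]
      have a4 : 0 ≤ (v - u) / Δ n := div_nonneg (by linarith) hΔ.le
      calc _ ≤ (v - u) / Δ n * dist (x n) (x (n + 1)) := mul_le_mul_of_nonneg_right a2 dist_nonneg
        _ ≤ (v - u) / Δ n * (L * Δ n) := mul_le_mul_of_nonneg_left (hd n (Nat.lt_succ_self n)) a4
        _ = L * (v - u) := by field_simp
    rcases le_total (cs Δ n) u with hu | hu
    · exact key u v hu huv
    rcases le_total v (cs Δ n) with hv | hv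
    · rw [pg_succ_le hu, pg_succ_le hv]
      exact ih h' hρ' hd' u v huv
    · have e1 := ih h' hρ' hd' u (cs Δ n) hu
      have e2 := key (cs Δ n) v le_rfl hv
      rw [← pg_succ_le (x := x) hu, ← pg_succ_le (x := x) (le_refl (cs Δ n))] at e1
      calc _ ≤ dist (pg x Δ (n + 1) u) (pg x Δ (n + 1) (cs Δ n)) +
            dist (pg x Δ (n + 1) (cs Δ n)) (pg x Δ (n + 1) v) := dist_triangle _ _ _
        _ ≤ L * (cs Δ n - u) + L * (v - cs Δ n) := add_le_add e1 e2
        _ = _ := by ring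

/-- the energy of a segment -/
theorem cert_seg' (hU : UniqSeg M ρ) {a b : M} (hab : dist a b < ρ) {c d : ℝ} (hd : 0 < d) :
    Cert (fun u => seg a b (min 1 ((u - c) / d))) (fun u => dist a b ^ 2 / d ^ 2 * u) c (c + d) := by
  intro s t hs hst ht
  have a0 : 0 ≤ (s - c) / d := div_nonneg (by linarith) hd.le
  have a1 : (s - c) / d ≤ (t - c) / d := by gcongr
  have a2 : (t - c) / d ≤ 1 := by rw [div_le_one hd]; linarith
  show dist (seg a b (min 1 ((s - c) / d))) (seg a b (min 1 ((t - c) / d))) ^ 2 ≤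
    (t - s) * (dist a b ^ 2 / d ^ 2 * t - dist a b ^ 2 / d ^ 2 * s)
  rw [min_eq_right (a1.trans a2), min_eq_right a2, dist_seg_seg_le hU hab a0 a1 a2]
  apply le_of_eq
  field_simp
  ring

/-- energy certificate of the polygonal path -/
theorem cert_pg (hU : UniqSeg M ρ) (h : ∀ i < n, 0 < Δ i)
    (hρ : ∀ i < n, dist (x i) (x (i + 1)) < ρ) :
    ∃ e : ℝ → ℝ, Cert (pg x Δ n) e 0 (cs Δ n) ∧ e 0 = 0 ∧
      e (cs Δ n) = ∑ i ∈ Finset.range n, dist (x i) (x (i + 1)) ^ 2 / Δ i := by
  induction n with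
  | zero =>
    refine ⟨fun _ => 0, ?_, rfl, by simp⟩
    intro s t hs hst ht
    simp
  | succ n ih =>
    have h' : ∀ i < n, 0 < Δ i := fun i hi => h i (hi.trans (Nat.lt_succ_self n))
    have hρ' : ∀ i < n, dist (x i) (x (i + 1)) < ρ := fun i hi => hρ i (hi.trans (Nat.lt_succ_self n))
    have hΔ := h n (Nat.lt_succ_self n)
    obtain ⟨e, h1, h2, h3⟩ := ih h' hρ'
    set q : ℝ := dist (x n) (x (n + 1)) ^ 2 / Δ n ^ 2 with hq
    refine ⟨fun u => if u ≤ cs Δ n then e u else e (cs Δ n) + q * (u - cs Δ n), ?_, ?_, ?_⟩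
    · rw [cs_succ]
      refine Cert.glue (b := cs Δ n) ?_ ?_
      · refine h1.congr (fun t ht => pg_succ_le ht.2) fun t ht => if_pos ht.2
      · have h4 := cert_seg' (c := cs Δ n) hU (hρ n (Nat.lt_succ_self n)) hΔ
        intro s t hs hst ht
        have h5 := h4 s t hs hst ht
        rw [pg_succ_ge h' hs, pg_succ_ge h' (hs.trans hst)]
        refine h5.trans (le_of_eq ?_)
        have key : ∀ u : ℝ, cs Δ n ≤ u → (if u ≤ cs Δ n then e u else e (cs Δ n) + q * (u - cs Δ n)) =
            e (cs Δ n) + q * (u - cs Δ n) := by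
          intro u hu
          rcases hu.eq_or_lt with h6 | h6
          · rw [if_pos h6.ge, ← h6, sub_self, mul_zero, add_zero]
          · rw [if_neg (not_le.2 h6)]
        show (t - s) * (q * t - q * s) = (t - s) * ((if t ≤ cs Δ n then e t else e (cs Δ n) + q * (t - cs Δ n)) -
          (if s ≤ cs Δ n then e s else e (cs Δ n) + q * (s - cs Δ n)))
        rw [key t (hs.trans hst), key s hs]
        ring
    · show (if (0:ℝ) ≤ cs Δ n then e 0 else _) = 0
      rw [if_pos (cs_nonneg h'), h2]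
    · show (if cs Δ (n + 1) ≤ cs Δ n then _ else e (cs Δ n) + q * (cs Δ (n + 1) - cs Δ n)) = _
      rw [if_neg (by rw [cs_succ]; linarith), h3, Finset.sum_range_succ, cs_succ, hq]
      field_simp
      ring

end lip

/-- continuity of the polygonal path in all the data -/
theorem continuousOn_pg [CompactSpace M] {ρ : ℝ} (hU : UniqSeg M ρ) {S : Type*} [TopologicalSpace S]
    {A : Set S} {X : S → ℕ → M} {D : S → ℕ → ℝ} {U : S → ℝ} {n : ℕ}
    (hX : ∀ i ≤ n, ContinuousOn (fun s => X s i) A) (hD : ∀ i < n, ContinuousOn (fun s => D s i) A)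
    (hu : ContinuousOn U A) (h : ∀ s ∈ A, ∀ i < n, 0 < D s i)
    (hρ : ∀ s ∈ A, ∀ i < n, dist (X s i) (X s (i + 1)) < ρ) :
    ContinuousOn (fun s => pg (X s) (D s) n (U s)) A := by
  induction n with
  | zero => exact hX 0 le_rfl
  | succ n ih =>
    have hX' : ∀ i ≤ n, ContinuousOn (fun s => X s i) A := fun i hi => hX i (hi.trans (Nat.le_succ n))
    have hD' : ∀ i < n, ContinuousOn (fun s => D s i) A := fun i hi => hD i (hi.trans (Nat.lt_succ_self n))
    have h' : ∀ s ∈ A, ∀ i < n, 0 < D s i := fun s hs i hi => h s hs i (hi.trans (Nat.lt_succ_self n))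
    have hρ' : ∀ s ∈ A, ∀ i < n, dist (X s i) (X s (i + 1)) < ρ := fun s hs i hi =>
      hρ s hs i (hi.trans (Nat.lt_succ_self n))
    have hcs : ContinuousOn (fun s => cs (D s) n) A := by
      unfold cs
      exact continuousOn_finset_sum _ fun i hi => hD' i (Finset.mem_range.1 hi)
    have hih := ih hX' hD' h' hρ'
    have hτ : ContinuousOn (fun s => min 1 (max 0 ((U s - cs (D s) n) / D s n))) A :=
      ContinuousOn.inf continuousOn_const (ContinuousOn.sup continuousOn_const ((hu.sub hcs).div (hD n (Nat.lt_succ_self n))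
        fun s hs => (h s hs n (Nat.lt_succ_self n)).ne'))
    have hs2 : ContinuousOn (fun s => seg (X s n) (X s (n + 1)) (min 1 (max 0 ((U s - cs (D s) n) / D s n)))) A :=
      LS.ContinuousOn.seg hU (hX n (Nat.le_succ n)) (hX (n + 1) le_rfl) hτ
        (fun s hs => hρ s hs n (Nat.lt_succ_self n))
        fun s _ => ⟨le_min zero_le_one (le_max_left _ _), min_le_left _ _⟩
    have e : EqOn (fun s => pg (X s) (D s) (n + 1) (U s))
        (fun s => if U s ≤ cs (D s) n then pg (X s) (D s) n (U s) else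
          seg (X s n) (X s (n + 1)) (min 1 (max 0 ((U s - cs (D s) n) / D s n)))) A := by
      intro s hs
      simp only [pg_succ]
      by_cases h1 : U s ≤ cs (D s) n
      · rw [if_pos h1, if_pos h1]
      · rw [if_neg h1, if_neg h1]
        rw [max_eq_right]
        exact div_nonneg (by linarith [not_le.1 h1]) (h s hs n (Nat.lt_succ_self n)).le
    refine ContinuousOn.congr ?_ e
    intro s hs
    -- glue on two relatively closed sets
    by_cases h1 : U s = cs (D s) n
    · have v1 : pg (X s) (D s) n (U s) = X s n := pg_of_ge (h' s hs) h1.ge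
      have v2 : seg (X s n) (X s (n + 1)) (min 1 (max 0 ((U s - cs (D s) n) / D s n))) = X s n := by
        rw [h1, sub_self, zero_div, max_self, min_eq_right zero_le_one, seg_zero]
      rw [ContinuousWithinAt, if_pos h1.le, v1]
      have t1 : Tendsto (fun s => pg (X s) (D s) n (U s)) (𝓝[A] s) (𝓝 (X s n)) := by
        have := hih s hs
        rwa [ContinuousWithinAt, v1] at this
      have t2 : Tendsto (fun s => seg (X s n) (X s (n + 1)) (min 1 (max 0 ((U s - cs (D s) n) / D s n))))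
          (𝓝[A] s) (𝓝 (X s n)) := by
        have := hs2 s hs
        rwa [ContinuousWithinAt, v2] at this
      exact t1.if' t2
    · rcases lt_or_gt_of_ne h1 with h2 | h2
      · have h3 : ∀ᶠ s' in 𝓝[A] s, U s' < cs (D s') n :=
          (hu s hs).eventually_lt (hcs s hs) h2
        refine (hih s hs).congr_of_eventuallyEq ?_ (if_pos h2.le)
        filter_upwards [h3] with s' hs'
        exact if_pos hs'.le
      · have h3 : ∀ᶠ s' in 𝓝[A] s, cs (D s') n < U s' :=
          (hcs s hs).eventually_lt (hu s hs) h2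
        refine (hs2 s hs).congr_of_eventuallyEq ?_ (if_neg (not_le.2 h2))
        filter_upwards [h3] with s' hs'
        exact if_neg (not_le.2 hs')

end Vale.Agent.P216.MV337
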