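import Vale.Agent.P216.H311.PathSp

/-!
# P216-B, block [MV], geometry: conjugation of Moore loops by paths

`cj m t q w`: the path `q` backwards in time `m`, then `w` in time `t`, then `q` in time `m`.
-/

set_option linter.all false

namespace Vale.Agent.P216.MV337

open Set Filter Topology BoundedContinuousFunction
open Vale.Agent.P216.PS

variable {M : Type*} [MetricSpace M]

variable (M) in
/-- free Moore-Lipschitz loops of time `t` -/
def FL (t : ℝ) : Set (ℝ →ᵇ M) :=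
  {w | (∀ u v, dist (w u) (w v) ≤ |u - v|) ∧ (∀ u ≤ 0, w u = w 0) ∧ ∀ u, t ≤ u → w u = w 0}

variable {a b x y : M} {t t' s u v m ℓ : ℝ} {w w' : ℝ →ᵇ M}

theorem FL_mono (h : t ≤ t') : FL M t ⊆ FL M t' :=
  fun _ hw => ⟨hw.1, hw.2.1, fun u hu => hw.2.2 u (h.trans hu)⟩

theorem mem_FL_iff : w ∈ FL M t ↔ w ∈ P (w 0) (w 0) t := Iff.rfl

theorem P_subset_FL : P a a t ⊆ FL M t := fun w hw => by
  have h0 : w 0 = a := hw.2.1 0 le_rfl
  refine ⟨hw.1, fun u hu => ?_, fun u hu => ?_⟩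
  · rw [hw.2.1 u hu, h0]
  · rw [hw.2.2 u hu, h0]

theorem mem_P_iff_FL : w ∈ P a a t ↔ w ∈ FL M t ∧ w 0 = a := by
  constructor
  · intro h
    exact ⟨P_subset_FL h, h.2.1 0 le_rfl⟩
  · rintro ⟨h, rfl⟩
    exact h

theorem FL_subset_PP : FL M t ⊆ PP M t := fun w hw =>
  ⟨hw.1, hw.2.1, fun u hu => by rw [hw.2.2 u hu, hw.2.2 t le_rfl]⟩

theorem mem_FL_iff_PP : w ∈ FL M t ↔ w ∈ PP M t ∧ w t = w 0 := by
  constructor
  · intro h
    exact ⟨FL_subset_PP h, h.2.2 t le_rfl⟩
  · rintro ⟨h, h'⟩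
    exact ⟨h.1, h.2.1, fun u hu => by rw [h.2.2 u hu, h']⟩

/-! ### Conjugation -/

/-- `q` backwards, then `w`, then `q` -/
noncomputable def cj (m t : ℝ) (q w : ℝ → M) (u : ℝ) : M :=
  if u ≤ m then q (m - u) else if u ≤ m + t then w (u - m) else q (u - m - t)

theorem cj_one {q w : ℝ → M} (hu : u ≤ m) : cj m t q w u = q (m - u) := if_pos hu

theorem cj_two {q w : ℝ → M} (h0 : w 0 = q 0) (hu : m ≤ u) (hu' : u ≤ m + t) :
    cj m t q w u = w (u - m) := by
  rcases hu.eq_or_lt with rfl | hu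
  · rw [cj_one le_rfl, sub_self, h0]
  · rw [cj, if_neg (not_le.2 hu), if_pos hu']

theorem cj_three {q w : ℝ → M} (h0 : w 0 = q 0) (ht : 0 ≤ t) (h1 : w t = q 0) (hu : m + t ≤ u) :
    cj m t q w u = q (u - m - t) := by
  rcases hu.eq_or_lt with rfl | hu
  · rw [cj_two h0 (by linarith) le_rfl, add_sub_cancel_left, sub_self, h1]
  · rw [cj, if_neg (by linarith), if_neg (not_le.2 hu)]

theorem lip_cj {q w : ℝ → M} (hq : Lip q) (hw : Lip w) (ht : 0 ≤ t) (h0 : w 0 = q 0)
    (h1 : w t = q 0) : Lip (cj m t q w) := by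
  refine lip_glue m (fun u v huv hv => ?_) fun u v hu huv => ?_
  · rw [cj_one (huv.trans hv), cj_one hv, dist_comm]
    exact (hq.le (by linarith)).trans_eq (by ring)
  rcases le_total v (m + t) with hv | hv
  · rw [cj_two h0 hu (huv.trans hv), cj_two h0 (hu.trans huv) hv]
    exact (hw.le (by linarith)).trans_eq (by ring)
  rcases le_total (m + t) u with hu' | hu'
  · rw [cj_three h0 ht h1 hu', cj_three h0 ht h1 hv]
    exact (hq.le (by linarith)).trans_eq (by ring)
  · have e1 : dist (cj m t q w u) (q 0) ≤ m + t - u := by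
      rw [cj_two h0 hu hu', ← h1]
      exact (hw.le (by linarith)).trans_eq (by ring)
    have e2 : dist (q 0) (cj m t q w v) ≤ v - m - t := by
      rw [cj_three h0 ht h1 hv]
      exact (hq.le (by linarith)).trans_eq (by ring)
    linarith [dist_triangle (cj m t q w u) (q 0) (cj m t q w v)]

theorem cj_nonpos {q w : ℝ → M} (hm : 0 ≤ m) (hq : ∀ u, m ≤ u → q u = a) (hu : u ≤ 0) :
    cj m t q w u = a := by
  rw [cj_one (hu.trans hm), hq _ (by linarith)]

theorem cj_ge {q w : ℝ → M} (ht : 0 ≤ t) (hm : 0 ≤ m) (h0 : w 0 = q 0) (h1 : w t = q 0)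
    (hq : ∀ u, m ≤ u → q u = a) (hu : t + 2 * m ≤ u) : cj m t q w u = a := by
  rw [cj_three h0 ht h1 (by linarith), hq _ (by linarith)]

/-- Conjugating by a constant path is a shift in time. -/
theorem cj_const (w : ℝ → M) (a : M) (ht : 0 ≤ t) (hw : ∀ u ≤ 0, w u = a) (hw' : ∀ u, t ≤ u → w u = a) :
    cj m t (fun _ => a) w u = w (u - m) := by
  rcases le_total u m with h | h
  · rw [cj_one h, hw _ (by linarith)]
  rcases le_total u (m + t) with h' | h'
  · rw [cj_two (hw 0 le_rfl) h h']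
  · rw [cj_three (hw 0 le_rfl) ht (hw' t le_rfl) h', hw' _ (by linarith)]

/-- Conjugating twice. `q` of time `m`, then `q'` of time `m'`. -/
theorem cj_cj {q q' w : ℝ → M} {m' : ℝ} (ht : 0 ≤ t) (hm : 0 ≤ m) (hm' : 0 ≤ m') (h0 : w 0 = q 0)
    (h1 : w t = q 0) (hqq : q m = q' 0) (hq : ∀ u, m ≤ u → q u = q m) (u : ℝ) :
    cj m' (t + 2 * m) q' (cj m t q w) u = cj (m + m') t (catf m q q') w u := by
  have c0 : catf m q q' 0 = q 0 := catf_left hm
  have e0 : cj m t q w 0 = q' 0 := by rw [cj_nonpos hm hq le_rfl, hqq]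
  have e1 : cj m t q w (t + 2 * m) = q' 0 := by rw [cj_ge ht hm h0 h1 hq le_rfl, hqq]
  rcases le_total u m' with h | h
  · rw [cj_one h, cj_one (by linarith), catf_right hqq (by linarith)]
    congr 1; ring
  rcases le_total u (m + m') with h' | h'
  · rw [cj_two e0 h (by linarith), cj_one (by linarith), cj_one h', catf_left (by linarith)]
    congr 1; ring
  rcases le_total u (m + m' + t) with h2 | h2
  · rw [cj_two e0 h (by linarith), cj_two h0 (by linarith) (by linarith),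
      cj_two (h0.trans c0.symm) h' h2]
    congr 1; ring
  rcases le_total u (m + m' + t + m) with h3 | h3
  · rw [cj_two e0 h (by linarith), cj_three h0 ht h1 (by linarith),
      cj_three (h0.trans c0.symm) ht (h1.trans c0.symm) h2, catf_left (by linarith)]
    congr 1; ring
  · rw [cj_three e0 (by linarith) e1 (by linarith),
      cj_three (h0.trans c0.symm) ht (h1.trans c0.symm) h2, catf_right hqq (by linarith)]
    congr 1; ring

section Compact

variable [CompactSpace M]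

theorem mo_cj_mem_P {q w : ℝ → M} (hq : Lip q) (hw : Lip w) (ht : 0 ≤ t) (hm : 0 ≤ m)
    (h0 : w 0 = q 0) (h1 : w t = q 0) (hqa : ∀ u, m ≤ u → q u = a) :
    mo (cj m t q w) ∈ P a a (t + 2 * m) :=
  mo_mem (lip_cj hq hw ht h0 h1) (fun u hu => cj_nonpos hm hqa hu) fun u hu => cj_ge ht hm h0 h1 hqa hu

theorem mo_cj_mem {q w : ℝ → M} (hq : Lip q) (hw : Lip w) (ht : 0 ≤ t) (hm : 0 ≤ m)
    (h0 : w 0 = q 0) (h1 : w t = q 0) (hqa : ∀ u, m ≤ u → q u = a) :
    mo (cj m t q w) ∈ FL M (t + 2 * m) := P_subset_FL (mo_cj_mem_P hq hw ht hm h0 h1 hqa)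

theorem mo_cj_zero {q w : ℝ → M} (hq : Lip q) (hw : Lip w) (ht : 0 ≤ t) (hm : 0 ≤ m)
    (h0 : w 0 = q 0) (h1 : w t = q 0) : mo (cj m t q w) 0 = q m := by
  rw [(lip_cj hq hw ht h0 h1).mo_apply, cj_one hm, sub_zero]

end Compact

/-- Pointwise continuity of the conjugation. -/
theorem continuousOn_cj {S : Type*} [TopologicalSpace S] {A : Set S} {Q : S → ℝ → M} {W : S → ℝ → M}
    {m t : S → ℝ} (u : ℝ) (hm : ContinuousOn m A) (htc : ContinuousOn t A)
    (hQ : ∀ φ : S → ℝ, ContinuousOn φ A → ContinuousOn (fun s => Q s (φ s)) A)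
    (hW : ∀ φ : S → ℝ, ContinuousOn φ A → ContinuousOn (fun s => W s (φ s)) A)
    (ht : ∀ s ∈ A, 0 ≤ t s) (h0 : ∀ s ∈ A, W s 0 = Q s 0) (h1 : ∀ s ∈ A, W s (t s) = Q s 0) :
    ContinuousOn (fun s => cj (m s) (t s) (Q s) (W s) u) A := by
  unfold cj
  refine PS.ContinuousOn.if_le' (hQ _ (hm.sub continuousOn_const)) ?_ continuousOn_const hm
    fun s hs he => ?_
  · refine PS.ContinuousOn.if_le' (hW _ (continuousOn_const.sub hm))
      (hQ _ ((continuousOn_const.sub hm).sub htc)) continuousOn_const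
      (hm.add htc) fun s hs he => ?_
    rw [he, add_sub_cancel_left, sub_self, h1 s hs]
  · rw [he, sub_self, if_pos (by linarith [ht s hs]), h0 s hs]

end Vale.Agent.P216.MV337
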