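import Vale.Agent.P216.B64.Contract
import Vale.Agent.P216.MV337.Conj

/-!
# P216-B, B44: the stable cohomology of the Moore-Lipschitz free loops (statement)

`FLOut` = `B64.XOut` for the sets `FL M t`, `t > 0`, of Moore-Lipschitz free loops.
-/

set_option linter.all false

namespace Vale.Agent.P216.MV337

open Set BoundedContinuousFunction
open Vale.Agent.P216.B64

/-- Output of the topology of the Moore free loops, for one field. `g q t` generates the stable
cohomology of `FL M t` in degree `q` (`0` if there is none). -/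
structure FLOut (M : Type) [MetricSpace M] (n : ℕ) (B : ℝ) (k : Type) [Field k] where
  g : ∀ (q : ℕ) (t : ℝ), HU k (FL M t) q
  res_g : ∀ q s t, 0 < s → ∀ (h : s ≤ t), hres k (FL_mono h) q (g q t) = g q s
  span : ∀ q t, 0 < t → ∀ (h : FL M t ⊆ FL M (t + B)) (z : HU k (FL M (t + B)) q),
    ∃ c : k, hres k h q z = c • g q t
  g_zero : ∀ q t, 0 < t → ¬ Deg n q → g q t = 0
  /-- reversal -/
  rev_zero : ∀ t, 0 < t → ∀ f, RevP t f → ∀ h : UMap (FL M t) (FL M t) f,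
    hpull k h 0 (g 0 t) = g 0 t
  rev_x : ∀ i t, 0 < t → ∀ f, RevP t f → ∀ h : UMap (FL M t) (FL M t) f,
    hpull k h _ (g (kk n i * (n - 1)) t) = (-1 : k) ^ (i + 1) • g (kk n i * (n - 1)) t
  rev_y : ∀ i t, 0 < t → ∀ f, RevP t f → ∀ h : UMap (FL M t) (FL M t) f,
    hpull k h _ (g (kk n i * (n - 1) + 1) t) = (-1 : k) ^ i • g (kk n i * (n - 1) + 1) t
  /-- births of the `x i` -/
  birth0 : ∀ t, 0 < t → B ≤ t → g (kk n 0 * (n - 1)) t ≠ 0
  birth : ∀ i t, 0 < t → g (kk n i * (n - 1)) t ≠ 0 →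
    g (kk n (i + 1) * (n - 1)) (t + B) ≠ 0

/-- **B44, first half** -/
def FLGoal : Prop := ∀ n : ℕ, 4 ≤ n → ∀ (M : Type) [MetricSpace M] [CompactSpace M] (ρ : ℝ),
  0 < ρ → LS.UniqSeg M ρ → Nonempty (M ≃ₜ Metric.sphere (0 : EuclideanSpace ℝ (Fin (n + 1))) 1) →
  ∃ B : ℝ, 0 < B ∧ ∀ (k : Type) [Field k], (2 : k) ≠ 0 → Nonempty (FLOut M n B k)

end Vale.Agent.P216.MV337
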