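import Vale.Agent.P216.MV337.Sys

/-!
# P216-B, block [MV], geometry: `H901.Triv` for the free loops of a space with caps
-/

set_option linter.all false

namespace Vale.Agent.P216.MV337

open Set Filter Topology BoundedContinuousFunction
open Vale.Agent.P216.PS
open Vale.Agent.P216.AS (IsMap IsHtpy)
open Vale.Agent.P216.H901 (Hp SpIntl Cu cub bdc ovr tr Triv)
open Vale.Agent.P216.MV337.Tr (htA htB)

variable {M : Type} [MetricSpace M] [CompactSpace M] {x₀ : M} {ℓ : ℝ} {T : M → ℝ → M}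

/-- evaluation at the origin -/
def evz (w : ℝ →ᵇ M) : M := w 0

omit [CompactSpace M] in
theorem mem_ovr {D : Set M} {t : ℝ} {w : ℝ →ᵇ M} : w ∈ ovr evz (fun t => FL M t) D t ↔ w ∈ FLD D t :=
  Iff.rfl

theorem isCompact_ovr {D : Set M} (hD : IsClosed D) {t : ℝ} (ht : 0 ≤ t) :
    IsCompact (ovr evz (fun t => FL M t) D t) := isCompact_FLD hD ht

/-- the interpolation of the times -/
theorem tm_aux {s t σ : ℝ} (hst : s ≤ t) (hσ : σ ∈ Icc (0:ℝ) 1) :
    s ≤ s + σ * (t - s) ∧ s + σ * (t - s) ≤ t := by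
  have h1 := mul_nonneg hσ.1 (sub_nonneg.2 hst)
  have h2 := mul_le_mul_of_nonneg_right hσ.2 (sub_nonneg.2 hst)
  constructor <;> linarith

/-- **over `Dm`** -/
noncomputable def spM {Dm : Set M} (hD : IsClosed Dm) (h : Tr Dm x₀ ℓ T) {xm : M} (hxm : xm ∈ Dm)
    {K : M × ℝ → M} (hK : ContinuousOn K (Dm ×ˢ Icc (0:ℝ) 1))
    (hKm : ∀ x ∈ Dm, ∀ s ∈ Icc (0:ℝ) 1, K (x, s) ∈ Dm) (hK0 : ∀ x ∈ Dm, K (x, 0) = x)
    (hK1 : ∀ x ∈ Dm, K (x, 1) = xm) :
    SpIntl (ovr evz (fun t => FL M t) Dm) (fun _ => ∅) (fun t => P x₀ x₀ t) (fun _ => ∅) (2 * ℓ) where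
  f t := cut T ℓ t
  g t v := back T ℓ t (xm, v)
  f_map t ht := map_of_cont (isCompact_ovr hD ht.le) (h.continuousOn_cut ht.le)
    fun w hw => h.cut_mem ht.le hw
  f_sub _ _ := mapsTo_empty _ _
  g_map t ht := map_of_cont (isCompact_P _ _ _)
    (h.continuousOn_back' (C := t) continuousOn_const continuousOn_id continuousOn_const
      (fun _ _ => ht.le) (fun _ _ => le_rfl) (fun _ _ => hxm) fun _ hv => hv)
    fun v hv => h.back_memD (p := (xm, v)) ht.le hxm hv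
  g_sub _ _ := mapsTo_empty _ _
  f_nat s t hs hst := by
    refine hp_of_cont (isCompact_ovr hD hs.le)
      (F := fun p => cut T ℓ (s + p.1 * (t - s)) p.2) ?_ ?_ ?_ ?_ ?_
    · refine h.continuousOn_cut' (C := t) continuousOn_snd (by fun_prop) ?_ ?_ ?_
      · exact fun p hp => hs.le.trans (tm_aux hst hp.1).1
      · exact fun p hp => (tm_aux hst hp.1).2
      · exact fun p hp => FLD_mono le_rfl (tm_aux hst hp.1).1 hp.2
    · intro σ hσ w hw
      exact P_mono (by linarith [(tm_aux hst hσ).2]) (h.cut_mem (hs.le.trans (tm_aux hst hσ).1)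
        (FLD_mono le_rfl (tm_aux hst hσ).1 hw))
    · intro σ hσ w hw
      exact hw.elim
    · intro w hw
      show cut T ℓ (s + 0 * (t - s)) w = _
      rw [zero_mul, add_zero]
    · intro w hw
      show cut T ℓ (s + 1 * (t - s)) w = _
      rw [one_mul, add_sub_cancel]
  g_nat s t hs hst := by
    refine hp_of_cont (isCompact_P _ _ _)
      (F := fun p => back T ℓ (s + p.1 * (t - s)) (xm, p.2)) ?_ ?_ ?_ ?_ ?_
    · refine h.continuousOn_back' (C := t) continuousOn_const continuousOn_snd (by fun_prop) ?_ ?_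
        (fun _ _ => hxm) ?_
      · exact fun p hp => hs.le.trans (tm_aux hst hp.1).1
      · exact fun p hp => (tm_aux hst hp.1).2
      · exact fun p hp => P_mono (tm_aux hst hp.1).1 hp.2
    · intro σ hσ v hv
      exact FLD_mono le_rfl (by linarith [(tm_aux hst hσ).2])
        (h.back_memD (p := (xm, v)) (hs.le.trans (tm_aux hst hσ).1) hxm
          (P_mono (tm_aux hst hσ).1 hv))
    · intro σ hσ w hw
      exact hw.elim
    · intro w hw
      show back T ℓ (s + 0 * (t - s)) (xm, w) = _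
      rw [zero_mul, add_zero]
    · intro w hw
      show back T ℓ (s + 1 * (t - s)) (xm, w) = _
      rw [one_mul, add_sub_cancel]
  gf t ht := by
    have hn := h.nonneg
    refine hp_of_cont (isCompact_ovr hD ht.le)
      (F := cc (htA T ℓ t) (fun p => back T ℓ (t + 2 * ℓ) (K (p.2 0, p.1), cut T ℓ t p.2))) ?_ ?_ ?_ ?_ ?_
    · refine cc_cont (h.continuousOn_htA ht.le) ?_ fun w hw => ?_
      · refine h.continuousOn_back' (C := t + 2 * ℓ) ?_ ?_ continuousOn_const ?_ ?_ ?_ ?_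
        · refine hK.comp ((continuousOn_eval continuousOn_snd continuousOn_const).prodMk
            continuousOn_fst) fun p hp => ⟨hp.2.2, hp.1⟩
        · exact (h.continuousOn_cut ht.le).comp continuousOn_snd fun p hp => hp.2
        · exact fun _ _ => by linarith
        · exact fun _ _ => le_rfl
        · exact fun p hp => hKm _ hp.2.2 _ hp.1
        · exact fun p hp => h.cut_mem ht.le hp.2
      · rw [h.htA_one ht.le hw]
        show _ = back T ℓ (t + 2 * ℓ) (K (w 0, 0), cut T ℓ t w)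
        rw [hK0 (w 0) hw.2]
    · intro σ hσ w hw
      refine cc_mem (fun s hs => ?_) (fun s hs => ?_) hσ
      · have h1 := h.htA_mem ht.le hs.1 hw
        exact ⟨FL_mono (by linarith) (P_subset_FL h1), by
          show (htA T ℓ t (s, w)) 0 ∈ Dm
          rw [eq_left h1 le_rfl]
          exact hw.2⟩
      · exact FLD_mono le_rfl (le_refl _) (h.back_memD (p := (K (w 0, s), cut T ℓ t w))
          (by linarith) (hKm _ hw.2 _ hs) (h.cut_mem ht.le hw))
    · intro σ hσ w hw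
      exact hw.elim
    · intro w hw
      rw [cc_zero]
      exact h.htA_zero ht.le hw
    · intro w hw
      rw [cc_one]
      show back T ℓ (t + 2 * ℓ) (K (w 0, 1), cut T ℓ t w) = _
      rw [hK1 (w 0) hw.2]
      rfl
  fg t ht := by
    have hn := h.nonneg
    refine hp_of_cont (isCompact_P _ _ _) (F := fun p => htB T ℓ t (p.1, (xm, p.2))) ?_ ?_ ?_ ?_ ?_
    · exact (h.continuousOn_htB ht.le).comp (by fun_prop) fun p hp => ⟨hp.1, hxm, hp.2⟩
    · intro σ hσ v hv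
      exact P_mono (by linarith) (h.htB_mem ht.le hσ.1 hxm hv)
    · intro σ hσ w hw
      exact hw.elim
    · exact fun v hv => h.htB_zero ht.le hxm hv
    · exact fun v hv => h.htB_one ht.le hxm hv

/-- **over `Dp`** -/
noncomputable def spP {n : ℕ} (C : Caps n M x₀) (h : Tr C.Dp x₀ ℓ T) :
    SpIntl (ovr evz (fun t => FL M t) C.Dp) (ovr evz (fun t => FL M t) (C.Dp ∩ C.Dm))
      (fun t => cub n (P x₀ x₀ t)) (fun t => bdc n (P x₀ x₀ t)) (2 * ℓ) where
  f t w := enc n (cut T ℓ t w) (C.φ (w 0))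
  g t z := back T ℓ t (C.ψ (dec2 n z), dec1 n z)
  f_map t ht := by
    refine map_of_cont (isCompact_ovr C.closed_p ht.le) ?_ fun w hw => ?_
    · exact enc_cont n (h.continuousOn_cut ht.le)
        (C.φ_cont.comp (continuousOn_eval continuousOn_id continuousOn_const) fun w hw => hw.2)
    · rw [mem_cub, dec1_enc, dec2_enc]
      exact ⟨h.cut_mem ht.le hw, C.φ_mem _ hw.2⟩
  f_sub t ht := by
    intro w hw
    have hw' : w ∈ FLD C.Dp t := ⟨hw.1, hw.2.1⟩
    rw [mem_bdc, mem_cub, dec1_enc, dec2_enc]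
    exact ⟨⟨h.cut_mem ht.le hw', C.φ_mem _ hw.2.1⟩, (C.bdry _ hw.2.1).1 hw.2.2⟩
  g_map t ht := by
    refine map_of_cont (isCompact_cub n (isCompact_P _ _ _)) ?_ fun z hz => ?_
    · refine h.continuousOn_back' (C := t) ?_ (dec1_cont n).continuousOn continuousOn_const
        (fun _ _ => ht.le) (fun _ _ => le_rfl) (fun z hz => C.ψ_mem _ ((mem_cub n).1 hz).2)
        fun z hz => ((mem_cub n).1 hz).1
      exact C.ψ_cont.comp (dec2_cont n).continuousOn fun z hz => ((mem_cub n).1 hz).2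
    · exact h.back_memD (p := (C.ψ (dec2 n z), dec1 n z)) ht.le (C.ψ_mem _ ((mem_cub n).1 hz).2)
        ((mem_cub n).1 hz).1
  g_sub t ht := by
    intro z hz
    obtain ⟨h1, h2⟩ := (mem_bdc n).1 hz
    obtain ⟨h3, h4⟩ := (mem_cub n).1 h1
    have h5 := C.ψ_mem _ h4
    have h6 := h.back_memD (p := (C.ψ (dec2 n z), dec1 n z)) ht.le h5 h3
    refine ⟨h6.1, h6.2, ?_⟩
    show back T ℓ t (C.ψ (dec2 n z), dec1 n z) 0 ∈ C.Dm
    rw [h.back_zero (p := (C.ψ (dec2 n z), dec1 n z)) ht.le h5 h3, C.bdry _ h5, C.φψ _ h4]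
    exact h2
  f_nat s t hs hst := by
    have hc : ContinuousOn (fun p : ℝ × (ℝ →ᵇ M) => enc n (cut T ℓ (s + p.1 * (t - s)) p.2)
        (C.φ (p.2 0))) (Icc (0:ℝ) 1 ×ˢ ovr evz (fun t => FL M t) C.Dp s) := by
      refine enc_cont n ?_ (C.φ_cont.comp (continuousOn_eval continuousOn_snd continuousOn_const)
        fun p hp => hp.2.2)
      refine h.continuousOn_cut' (C := t) continuousOn_snd (by fun_prop) ?_ ?_ ?_
      · exact fun p hp => hs.le.trans (tm_aux hst hp.1).1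
      · exact fun p hp => (tm_aux hst hp.1).2
      · exact fun p hp => FLD_mono le_rfl (tm_aux hst hp.1).1 hp.2
    have hm : ∀ σ ∈ Icc (0:ℝ) 1, ∀ w ∈ FLD C.Dp s,
        cut T ℓ (s + σ * (t - s)) w ∈ P x₀ x₀ (t + 2 * ℓ) := fun σ hσ w hw =>
      P_mono (by linarith [(tm_aux hst hσ).2]) (h.cut_mem (hs.le.trans (tm_aux hst hσ).1)
        (FLD_mono le_rfl (tm_aux hst hσ).1 hw))
    refine hp_of_cont (isCompact_ovr C.closed_p hs.le) hc ?_ ?_ ?_ ?_
    · intro σ hσ w hw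
      rw [mem_cub, dec1_enc, dec2_enc]
      exact ⟨hm σ hσ w hw, C.φ_mem _ hw.2⟩
    · intro σ hσ w hw
      rw [mem_bdc, mem_cub, dec1_enc, dec2_enc]
      exact ⟨⟨hm σ hσ w ⟨hw.1, hw.2.1⟩, C.φ_mem _ hw.2.1⟩, (C.bdry _ hw.2.1).1 hw.2.2⟩
    · intro w hw
      show enc n (cut T ℓ (s + 0 * (t - s)) w) _ = _
      rw [zero_mul, add_zero]
    · intro w hw
      show enc n (cut T ℓ (s + 1 * (t - s)) w) _ = _
      rw [one_mul, add_sub_cancel]
  g_nat s t hs hst := by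
    have hc : ContinuousOn (fun p : ℝ × Cu (ℝ →ᵇ M) n => back T ℓ (s + p.1 * (t - s))
        (C.ψ (dec2 n p.2), dec1 n p.2)) (Icc (0:ℝ) 1 ×ˢ cub n (P x₀ x₀ s)) := by
      refine h.continuousOn_back' (C := t) ?_ ((dec1_cont n).comp_continuousOn continuousOn_snd)
        (by fun_prop) ?_ ?_ ?_ ?_
      · exact C.ψ_cont.comp ((dec2_cont n).comp_continuousOn continuousOn_snd)
          fun p hp => ((mem_cub n).1 hp.2).2
      · exact fun p hp => hs.le.trans (tm_aux hst hp.1).1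
      · exact fun p hp => (tm_aux hst hp.1).2
      · exact fun p hp => C.ψ_mem _ ((mem_cub n).1 hp.2).2
      · exact fun p hp => P_mono (tm_aux hst hp.1).1 ((mem_cub n).1 hp.2).1
    have hm : ∀ σ ∈ Icc (0:ℝ) 1, ∀ z ∈ cub n (P x₀ x₀ s),
        back T ℓ (s + σ * (t - s)) (C.ψ (dec2 n z), dec1 n z) ∈
          P (C.ψ (dec2 n z)) (C.ψ (dec2 n z)) (t + 2 * ℓ) := fun σ hσ z hz =>
      P_mono (by linarith [(tm_aux hst hσ).2]) (h.back_mem (p := (C.ψ (dec2 n z), dec1 n z))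
        (hs.le.trans (tm_aux hst hσ).1) (C.ψ_mem _ ((mem_cub n).1 hz).2)
        (P_mono (tm_aux hst hσ).1 ((mem_cub n).1 hz).1))
    refine hp_of_cont (isCompact_cub n (isCompact_P _ _ _)) hc ?_ ?_ ?_ ?_
    · intro σ hσ z hz
      refine ⟨P_subset_FL (hm σ hσ z hz), ?_⟩
      show back T ℓ (s + σ * (t - s)) (C.ψ (dec2 n z), dec1 n z) 0 ∈ C.Dp
      rw [eq_left (hm σ hσ z hz) le_rfl]
      exact C.ψ_mem _ ((mem_cub n).1 hz).2
    · intro σ hσ z hz
      obtain ⟨h1, h2⟩ := (mem_bdc n).1 hz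
      obtain ⟨h3, h4⟩ := (mem_cub n).1 h1
      refine ⟨P_subset_FL (hm σ hσ z h1), ?_⟩
      show back T ℓ (s + σ * (t - s)) (C.ψ (dec2 n z), dec1 n z) 0 ∈ C.Dp ∩ C.Dm
      rw [eq_left (hm σ hσ z h1) le_rfl]
      refine ⟨C.ψ_mem _ h4, ?_⟩
      rw [C.bdry _ (C.ψ_mem _ h4), C.φψ _ h4]
      exact h2
    · intro z hz
      show back T ℓ (s + 0 * (t - s)) _ = _
      rw [zero_mul, add_zero]
    · intro z hz
      show back T ℓ (s + 1 * (t - s)) _ = _
      rw [one_mul, add_sub_cancel]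
  gf t ht := by
    have hn := h.nonneg
    have hm : ∀ σ ∈ Icc (0:ℝ) 1, ∀ w ∈ FLD C.Dp t, htA T ℓ t (σ, w) ∈ P (w 0) (w 0) (t + 2 * ℓ + 2 * ℓ) :=
      fun σ hσ w hw => P_mono (by linarith) (h.htA_mem ht.le hσ.1 hw)
    refine hp_of_cont (isCompact_ovr C.closed_p ht.le) (F := htA T ℓ t) (h.continuousOn_htA ht.le)
      ?_ ?_ ?_ ?_
    · intro σ hσ w hw
      refine ⟨P_subset_FL (hm σ hσ w hw), ?_⟩
      show htA T ℓ t (σ, w) 0 ∈ C.Dp
      rw [eq_left (hm σ hσ w hw) le_rfl]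
      exact hw.2
    · intro σ hσ w hw
      have hw' : w ∈ FLD C.Dp t := ⟨hw.1, hw.2.1⟩
      refine ⟨P_subset_FL (hm σ hσ w hw'), ?_⟩
      show htA T ℓ t (σ, w) 0 ∈ C.Dp ∩ C.Dm
      rw [eq_left (hm σ hσ w hw') le_rfl]
      exact hw.2
    · exact fun w hw => h.htA_zero ht.le hw
    · intro w hw
      rw [h.htA_one ht.le hw]
      show _ = back T ℓ (t + 2 * ℓ) (C.ψ (dec2 n (enc n (cut T ℓ t w) (C.φ (w 0)))),
        dec1 n (enc n (cut T ℓ t w) (C.φ (w 0))))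
      rw [dec1_enc, dec2_enc, C.ψφ (w 0) hw.2]
  fg t ht := by
    have hn := h.nonneg
    have hc : ContinuousOn (fun p : ℝ × Cu (ℝ →ᵇ M) n => enc n
        (htB T ℓ t (p.1, (C.ψ (dec2 n p.2), dec1 n p.2))) (dec2 n p.2))
        (Icc (0:ℝ) 1 ×ˢ cub n (P x₀ x₀ t)) := by
      have hd2 : ContinuousOn (fun p : ℝ × Cu (ℝ →ᵇ M) n => dec2 n p.2)
          (Icc (0:ℝ) 1 ×ˢ cub n (P x₀ x₀ t)) := (dec2_cont n).comp_continuousOn continuousOn_snd
      have hd1 : ContinuousOn (fun p : ℝ × Cu (ℝ →ᵇ M) n => dec1 n p.2)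
          (Icc (0:ℝ) 1 ×ˢ cub n (P x₀ x₀ t)) := (dec1_cont n).comp_continuousOn continuousOn_snd
      refine enc_cont n ?_ hd2
      refine (h.continuousOn_htB ht.le).comp (continuousOn_fst.prodMk ((C.ψ_cont.comp hd2
        fun p hp => ((mem_cub n).1 hp.2).2).prodMk hd1)) fun p hp => ?_
      exact ⟨hp.1, C.ψ_mem _ ((mem_cub n).1 hp.2).2, ((mem_cub n).1 hp.2).1⟩
    have hm : ∀ σ ∈ Icc (0:ℝ) 1, ∀ z ∈ cub n (P x₀ x₀ t),
        htB T ℓ t (σ, (C.ψ (dec2 n z), dec1 n z)) ∈ P x₀ x₀ (t + 2 * ℓ + 2 * ℓ) := fun σ hσ z hz =>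
      P_mono (by linarith) (h.htB_mem ht.le hσ.1 (C.ψ_mem _ ((mem_cub n).1 hz).2) ((mem_cub n).1 hz).1)
    refine hp_of_cont (isCompact_cub n (isCompact_P _ _ _)) hc ?_ ?_ ?_ ?_
    · intro σ hσ z hz
      rw [mem_cub, dec1_enc, dec2_enc]
      exact ⟨hm σ hσ z hz, ((mem_cub n).1 hz).2⟩
    · intro σ hσ z hz
      obtain ⟨h1, h2⟩ := (mem_bdc n).1 hz
      rw [mem_bdc, mem_cub, dec1_enc, dec2_enc]
      exact ⟨⟨hm σ hσ z h1, ((mem_cub n).1 h1).2⟩, h2⟩
    · intro z hz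
      obtain ⟨h3, h4⟩ := (mem_cub n).1 hz
      show enc n (htB T ℓ t (0, (C.ψ (dec2 n z), dec1 n z))) (dec2 n z) = z
      rw [h.htB_zero ht.le (C.ψ_mem _ h4) h3, enc_dec]
    · intro z hz
      obtain ⟨h3, h4⟩ := (mem_cub n).1 hz
      show enc n (htB T ℓ t (1, (C.ψ (dec2 n z), dec1 n z))) (dec2 n z) =
        enc n (cut T ℓ (t + 2 * ℓ) (back T ℓ t (C.ψ (dec2 n z), dec1 n z)))
          (C.φ (back T ℓ t (C.ψ (dec2 n z), dec1 n z) 0))
      rw [h.htB_one ht.le (C.ψ_mem _ h4) h3, h.back_zero (p := (C.ψ (dec2 n z), dec1 n z)) ht.le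
        (C.ψ_mem _ h4) h3, C.φψ _ h4]

/-- **The trivialisations** of the free loops of a space with caps, from given tracks. -/
noncomputable def trivOf {n : ℕ} (C : Caps n M x₀) {Tp Tm : M → ℝ → M} (hp : Tr C.Dp x₀ ℓ Tp)
    (hm : Tr C.Dm x₀ ℓ Tm) : Triv n (evz (M := M)) (fun t => FL M t) (fun t => P x₀ x₀ t) (2 * ℓ) where
  c0 := by linarith [hp.nonneg]
  Dp := C.Dp
  Dm := C.Dm
  closed_p := C.closed_p
  closed_m := C.closed_m
  union := C.union
  ev_cont := by unfold evz; fun_prop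
  X_comp t ht := isCompact_FL ht.le
  X_mono s t _ h := FL_mono h
  Om_comp t _ := isCompact_P _ _ _
  Om_mono s t _ h := P_mono h
  tm := spM C.closed_m hm C.xm_mem C.Km_cont C.Km_mem C.Km_zero C.Km_one
  tp := spP C hp

/-- tracks of the same time over both parts -/
theorem exists_tracks₂ {n : ℕ} (C : Caps n M x₀) {ρ : ℝ} (hρ : 0 < ρ) (hU : LS.UniqSeg M ρ) :
    ∃ ℓ Tp Tm, Tr C.Dp x₀ ℓ Tp ∧ Tr C.Dm x₀ ℓ Tm := by
  obtain ⟨ℓ, Tp, hp⟩ := exists_tracks hρ hU C.closed_p.isCompact C.Hp_cont C.Hp_zero C.Hp_one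
  obtain ⟨ℓ', Tm, hm⟩ := exists_tracks hρ hU C.closed_m.isCompact C.Hm_cont C.Hm_zero C.Hm_one
  exact ⟨max ℓ ℓ', Tp, Tm, hp.le (le_max_left _ _), hm.le (le_max_right _ _)⟩

/-- **The trivialisations** of the free loops of a space with caps. -/
theorem exists_triv {n : ℕ} (C : Caps n M x₀) {ρ : ℝ} (hρ : 0 < ρ) (hU : LS.UniqSeg M ρ) :
    ∃ c, Nonempty (Triv n (evz (M := M)) (fun t => FL M t) (fun t => P x₀ x₀ t) c) := by
  obtain ⟨ℓ, Tp, Tm, hp, hm⟩ := exists_tracks₂ C hρ hU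
  exact ⟨2 * ℓ, ⟨trivOf C hp hm⟩⟩

end Vale.Agent.P216.MV337
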